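import Vale.Agent.Lib.P045.Defs

/-!
# P045: dual of Bruen's theorem on blocking sets

At most `q + 1 + t` lines, `t ^ 2 < q`, which cover all points of the projective plane over a
field with `q` elements, contain all lines through some point.
-/

namespace Vale.Agent.P045

open Finset

variable {F : Type} [Field F] [Fintype F] [DecidableEq F]

omit [Field F] [DecidableEq F] in
theorem bruen_card_pt : Fintype.card (Pt F) = Fintype.card F ^ 2 + Fintype.card F + 1 := by
  have e : Pt F ≃ (F × F) ⊕ (F ⊕ Unit) :=
    { toFun := fun z => match z with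
        | .aff a b => Sum.inl (a, b)
        | .dir x => Sum.inr (Sum.inl x)
        | .vinf => Sum.inr (Sum.inr ())
      invFun := fun z => match z with
        | Sum.inl (a, b) => .aff a b
        | Sum.inr (Sum.inl x) => .dir x
        | Sum.inr (Sum.inr _) => .vinf
      left_inv := by
        intro z
        cases z <;> rfl
      right_inv := by
        rintro (⟨a, b⟩ | x | ⟨⟩) <;> rfl }
  rw [Fintype.card_congr e, Fintype.card_sum, Fintype.card_sum, Fintype.card_prod,
    Fintype.card_unit]
  ring

theorem bruen_card_line (m : Ln F) :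
    (univ.filter (fun z : Pt F => Inc z m)).card = Fintype.card F + 1 := by
  have key : ∀ f : Option F → Pt F, Function.Injective f →
      (∀ z : Pt F, Inc z m ↔ ∃ o, f o = z) →
      (univ.filter (fun z : Pt F => Inc z m)).card = Fintype.card F + 1 := by
    intro f hf h
    have e1 : univ.filter (fun z : Pt F => Inc z m) = univ.image f := by
      ext z
      simp [h]
    rw [e1, Finset.card_image_of_injective _ hf, Finset.card_univ, Fintype.card_option]
  cases m with
  | sl x y =>
    refine key (fun o => match o with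
      | none => .dir x
      | some a => .aff a (x * a + y)) ?_ ?_
    · rintro (_ | a) (_ | a') h <;> simp_all
    · rintro (⟨a, b⟩ | x' | _)
      · constructor
        · intro h
          exact ⟨some a, by simp only [Inc] at h; rw [h]⟩
        · rintro ⟨_ | a', h⟩
          · simp at h
          · simp only [Pt.aff.injEq] at h
            obtain ⟨rfl, rfl⟩ := h
            rfl
      · constructor
        · intro h
          exact ⟨none, by simp only [Inc] at h; rw [h]⟩
        · rintro ⟨_ | a', h⟩
          · simp only [Pt.dir.injEq] at h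
            exact h.symm
          · simp at h
      · constructor
        · intro h
          exact absurd h (by simp [Inc])
        · rintro ⟨_ | a', h⟩ <;> simp at h
  | ver c =>
    refine key (fun o => match o with
      | none => .vinf
      | some b => .aff c b) ?_ ?_
    · rintro (_ | a) (_ | a') h <;> simp_all
    · rintro (⟨a, b⟩ | x' | _)
      · constructor
        · intro h
          exact ⟨some b, by simp only [Inc] at h; rw [h]⟩
        · rintro ⟨_ | a', h⟩
          · simp at h
          · simp only [Pt.aff.injEq] at h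
            exact h.1.symm
      · constructor
        · intro h
          exact absurd h (by simp [Inc])
        · rintro ⟨_ | a', h⟩ <;> simp at h
      · constructor
        · intro h
          exact ⟨none, rfl⟩
        · intro _
          simp [Inc]
  | inf =>
    refine key (fun o => match o with
      | none => .vinf
      | some x => .dir x) ?_ ?_
    · rintro (_ | a) (_ | a') h <;> simp_all
    · rintro (⟨a, b⟩ | x' | _)
      · constructor
        · intro h
          exact absurd h (by simp [Inc])
        · rintro ⟨_ | a', h⟩ <;> simp at h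
      · constructor
        · intro h
          exact ⟨some x', rfl⟩
        · intro _
          simp [Inc]
      · constructor
        · intro h
          exact ⟨none, rfl⟩
        · intro _
          simp [Inc]

omit [Fintype F] [DecidableEq F] in
theorem bruen_meet {m m' : Ln F} (h : m ≠ m') :
    ∃ z : Pt F, ∀ z' : Pt F, (Inc z' m ∧ Inc z' m') ↔ z' = z := by
  have hsv : ∀ x y c : F, ∀ z' : Pt F, (Inc z' (.sl x y) ∧ Inc z' (.ver c)) ↔
      z' = .aff c (x * c + y) := by
    intro x y c z'
    rcases z' with ⟨a, b⟩ | x' | _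
    · simp only [Inc, Pt.aff.injEq]
      constructor
      · rintro ⟨h1, h2⟩
        exact ⟨h2, by rw [h1, h2]⟩
      · rintro ⟨h1, h2⟩
        exact ⟨by rw [h2, h1], h1⟩
    · simp [Inc]
    · simp [Inc]
  have hsi : ∀ x y : F, ∀ z' : Pt F, (Inc z' (.sl x y) ∧ Inc z' .inf) ↔ z' = .dir x := by
    intro x y z'
    rcases z' with ⟨a, b⟩ | x' | _ <;> simp [Inc]
  have hvi : ∀ c : F, ∀ z' : Pt F, (Inc z' (.ver c) ∧ Inc z' .inf) ↔ z' = .vinf := by
    intro c z'
    rcases z' with ⟨a, b⟩ | x' | _ <;> simp [Inc]
  rcases m with ⟨x, y⟩ | c | _ <;> rcases m' with ⟨x', y'⟩ | c' | _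
  · by_cases hx : x = x'
    · subst hx
      have hy : y ≠ y' := fun hy => h (by rw [hy])
      refine ⟨.dir x, ?_⟩
      rintro (⟨a, b⟩ | x'' | _)
      · simp only [Inc, reduceCtorEq, iff_false, not_and]
        intro h1 h2
        apply hy
        rw [h1] at h2
        exact add_left_cancel h2
      · simp [Inc]
      · simp [Inc]
    · have hd : x - x' ≠ 0 := sub_ne_zero.mpr hx
      refine ⟨.aff ((y' - y) / (x - x')) (x * ((y' - y) / (x - x')) + y), ?_⟩
      rintro (⟨a, b⟩ | x'' | _)
      · simp only [Inc, Pt.aff.injEq]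
        constructor
        · rintro ⟨h1, h2⟩
          have h3 : a = (y' - y) / (x - x') := by
            rw [eq_div_iff hd]
            rw [h1] at h2
            linear_combination h2
          exact ⟨h3, by rw [h1, h3]⟩
        · rintro ⟨h1, h2⟩
          have h3 : a * (x - x') = y' - y := by rw [h1, div_mul_cancel₀ _ hd]
          rw [← h1] at h2
          refine ⟨h2, ?_⟩
          rw [h2]
          linear_combination h3
      · simp only [Inc, reduceCtorEq, iff_false, not_and]
        intro h1 h2
        exact hx (h1.symm.trans h2)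
      · simp [Inc]
  · exact ⟨_, hsv x y c'⟩
  · exact ⟨_, hsi x y⟩
  · exact ⟨_, fun z' => and_comm.trans (hsv x' y' c z')⟩
  · have hc : c ≠ c' := fun hc => h (by rw [hc])
    refine ⟨.vinf, ?_⟩
    rintro (⟨a, b⟩ | x'' | _)
    · simp only [Inc, reduceCtorEq, iff_false, not_and]
      intro h1 h2
      exact hc (h1.symm.trans h2)
    · simp [Inc]
    · simp [Inc]
  · exact ⟨_, hvi c⟩
  · exact ⟨_, fun z' => and_comm.trans (hsi x' y' z')⟩
  · exact ⟨_, fun z' => and_comm.trans (hvi c' z')⟩
  · exact absurd rfl h

theorem bruen (L : Finset (Ln F)) (t : ℕ) (ht : t ^ 2 < Fintype.card F)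
    (hL : L.card ≤ Fintype.card F + 1 + t) (hcov : ∀ z : Pt F, ∃ m ∈ L, Inc z m) :
    ∃ z : Pt F, ∀ m : Ln F, Inc z m → m ∈ L := by
  by_contra hno
  push Not at hno
  set q : ℕ := Fintype.card F with hq
  set n : ℕ := L.card with hn
  set lam : Pt F → ℕ := fun z => (L.filter (fun m => Inc z m)).card with hlam
  have h1 : ∀ z, 1 ≤ lam z := by
    intro z
    obtain ⟨m, hm, hz⟩ := hcov z
    rw [hlam]
    exact Finset.card_pos.mpr ⟨m, Finset.mem_filter.mpr ⟨hm, hz⟩⟩
  have h2 : ∀ z, lam z + q ≤ n := by
    intro z
    obtain ⟨m, hzm, hmL⟩ := hno z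
    choose ℓ hℓL hℓ using hcov
    have hne : ∀ z', ℓ z' ≠ m := fun z' h => hmL (h ▸ hℓL z')
    have e1 : ((univ.filter (fun z' : Pt F => Inc z' m)).erase z).card = q := by
      rw [Finset.card_erase_of_mem (by simp [hzm]), bruen_card_line, Nat.add_sub_cancel]
    have e2 : ((univ.filter (fun z' : Pt F => Inc z' m)).erase z).card ≤
        (L.filter (fun m' => ¬ Inc z m')).card := by
      apply Finset.card_le_card_of_injOn ℓ
      · intro z' hz'
        have hz'2 := Finset.mem_erase.mp (Finset.mem_coe.mp hz')
        have hz'3 : Inc z' m := (Finset.mem_filter.mp hz'2.2).2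
        refine Finset.mem_coe.mpr (Finset.mem_filter.mpr ⟨hℓL z', ?_⟩)
        intro hzl
        obtain ⟨u, hu⟩ := bruen_meet (hne z')
        have g1 := (hu z).mp ⟨hzl, hzm⟩
        have g2 := (hu z').mp ⟨hℓ z', hz'3⟩
        exact hz'2.1 (g2.trans g1.symm)
      · intro z₁ hz₁ z₂ hz₂ h12
        have a1 := (Finset.mem_filter.mp (Finset.mem_erase.mp (Finset.mem_coe.mp hz₁)).2).2
        have a2 := (Finset.mem_filter.mp (Finset.mem_erase.mp (Finset.mem_coe.mp hz₂)).2).2
        obtain ⟨u, hu⟩ := bruen_meet (hne z₁)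
        have g1 := (hu z₁).mp ⟨hℓ z₁, a1⟩
        have g2 := (hu z₂).mp ⟨by rw [h12]; exact hℓ z₂, a2⟩
        exact g1.trans g2.symm
    have e3 := Finset.card_filter_add_card_filter_not (s := L) (fun m' => Inc z m')
    have e4 : lam z + (L.filter (fun m' => ¬ Inc z m')).card = n := e3
    omega
  have hs1 : ∑ z, lam z = n * (q + 1) := by
    have e1 : ∀ z, lam z = ∑ m ∈ L, if Inc z m then 1 else 0 := fun z => Finset.card_filter _ _
    simp only [e1]
    rw [Finset.sum_comm]
    have e2 : ∀ m ∈ L, (∑ z : Pt F, if Inc z m then 1 else 0) = q + 1 := by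
      intro m _
      rw [← Finset.card_filter, bruen_card_line]
    rw [Finset.sum_congr rfl e2, Finset.sum_const, smul_eq_mul]
  have hs2 : ∑ z, lam z * lam z = n * (q + 1) + n * (n - 1) := by
    have e1 : ∀ z, lam z * lam z
        = ∑ m ∈ L, ∑ m' ∈ L, if Inc z m ∧ Inc z m' then 1 else 0 := by
      intro z
      have e0 : lam z = ∑ m ∈ L, if Inc z m then 1 else 0 := Finset.card_filter _ _
      rw [e0, Finset.sum_mul_sum]
      refine Finset.sum_congr rfl fun m _ => Finset.sum_congr rfl fun m' _ => ?_
      by_cases g1 : Inc z m <;> by_cases g2 : Inc z m' <;> simp [g1, g2]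
    simp only [e1]
    rw [Finset.sum_comm]
    have e2 : ∀ m ∈ L, (∑ z : Pt F, ∑ m' ∈ L, if Inc z m ∧ Inc z m' then 1 else 0)
        = (q + 1) + (n - 1) := by
      intro m hm
      rw [Finset.sum_comm, ← Finset.add_sum_erase L _ hm]
      congr 1
      · rw [← Finset.card_filter]
        simp only [and_self]
        rw [bruen_card_line]
      · have e3 : ∀ m' ∈ L.erase m, (∑ z : Pt F, if Inc z m ∧ Inc z m' then 1 else 0) = 1 := by
          intro m' hm'
          obtain ⟨u, hu⟩ := bruen_meet (Finset.mem_erase.mp hm').1.symm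
          rw [← Finset.card_filter]
          have e4 : univ.filter (fun z : Pt F => Inc z m ∧ Inc z m') = {u} := by
            ext z
            simp [hu z]
          rw [e4, Finset.card_singleton]
        rw [Finset.sum_congr rfl e3, Finset.sum_const, smul_eq_mul, mul_one,
          Finset.card_erase_of_mem hm]
    rw [Finset.sum_congr rfl e2, Finset.sum_const, smul_eq_mul]
    ring
  -- the quadratic inequality
  have hqpos : 0 < q := by omega
  have hn1 : q + 1 ≤ n := by
    have g1 := h1 .vinf
    have g2 := h2 .vinf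
    omega
  have hsum : 0 ≤ ∑ z : Pt F, ((lam z : ℤ) - 1) * ((n : ℤ) - q - lam z) := by
    refine Finset.sum_nonneg fun z _ => ?_
    have g1 := h1 z
    have g2 := h2 z
    apply mul_nonneg
    · have : (1 : ℤ) ≤ lam z := by exact_mod_cast g1
      linarith
    · have : (lam z : ℤ) + q ≤ n := by exact_mod_cast g2
      linarith
  have hexp : ∑ z : Pt F, ((lam z : ℤ) - 1) * ((n : ℤ) - q - lam z)
      = -(∑ z : Pt F, (lam z : ℤ) * lam z) + ((n : ℤ) - q + 1) * (∑ z : Pt F, (lam z : ℤ))
        - ((n : ℤ) - q) * ((q : ℤ) ^ 2 + q + 1) := by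
    have e0 : ((q : ℤ) ^ 2 + q + 1) = ∑ _z : Pt F, (1 : ℤ) := by
      rw [Finset.sum_const, Finset.card_univ, bruen_card_pt, ← hq]
      simp
    rw [e0, Finset.mul_sum, Finset.mul_sum, ← Finset.sum_neg_distrib, ← Finset.sum_add_distrib,
      ← Finset.sum_sub_distrib]
    refine Finset.sum_congr rfl fun z _ => ?_
    ring
  have hs1' : ∑ z : Pt F, (lam z : ℤ) = (n : ℤ) * (q + 1) := by exact_mod_cast hs1
  have hs2' : ∑ z : Pt F, (lam z : ℤ) * lam z = (n : ℤ) * (q + 1) + (n : ℤ) * (n - 1) := by
    have e1 : ((∑ z, lam z * lam z : ℕ) : ℤ) = ((n * (q + 1) + n * (n - 1) : ℕ) : ℤ) := by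
      rw [hs2]
    rw [Nat.cast_add, Nat.cast_mul n (n - 1), Nat.cast_sub (by omega : 1 ≤ n)] at e1
    push_cast at e1
    exact e1
  rw [hexp, hs1', hs2'] at hsum
  obtain ⟨s, hs⟩ := Nat.exists_eq_add_of_le hn1
  have hst : s ≤ t := by omega
  have hs2t : s ^ 2 < q := lt_of_le_of_lt (Nat.pow_le_pow_left hst 2) ht
  have hs3 : (s : ℤ) ^ 2 < q := by exact_mod_cast hs2t
  have hq3 : (0 : ℤ) < q := by exact_mod_cast hqpos
  rw [hs] at hsum
  push_cast at hsum
  have hfin : (0 : ℤ) ≤ q * ((s : ℤ) ^ 2 - q) := by
    calc (0 : ℤ) ≤ _ := hsum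
      _ = q * ((s : ℤ) ^ 2 - q) := by ring
  nlinarith

end Vale.Agent.P045
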