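import Vale.Agent.Lib.P045.Size

/-! # P045, module CO: the cost of all lines through a point -/

namespace Vale.Agent.P045

open Finset

variable {F : Type} [Field F] [Fintype F] [DecidableEq F]

theorem card_inc (z : Pt F) :
    Fintype.card F + 1 ≤ (univ.filter (fun m : Ln F => Inc z m)).card := by
  have key : ∀ g : Option F → Ln F, Function.Injective g → (∀ o, Inc z (g o)) →
      Fintype.card F + 1 ≤ (univ.filter (fun m : Ln F => Inc z m)).card := by
    intro g hg hi
    have h1 : (univ.image g).card = Fintype.card F + 1 := by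
      rw [card_image_of_injective _ hg, card_univ, Fintype.card_option]
    rw [← h1]
    apply card_le_card
    intro m hm
    obtain ⟨o, _, rfl⟩ := mem_image.mp hm
    exact mem_filter.mpr ⟨mem_univ _, hi o⟩
  cases z with
  | aff a b =>
    refine key (fun o => match o with
      | none => .ver a
      | some x => .sl x (b - x * a)) ?_ ?_
    · intro o o' h
      cases o <;> cases o' <;> simp_all
    · intro o
      cases o <;> simp [Inc]
  | dir x =>
    refine key (fun o => match o with
      | none => .inf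
      | some y => .sl x y) ?_ ?_
    · intro o o' h
      cases o <;> cases o' <;> simp_all
    · intro o
      cases o <;> simp [Inc]
  | vinf =>
    refine key (fun o => match o with
      | none => .inf
      | some y => .ver y) ?_ ?_
    · intro o o' h
      cases o <;> cases o' <;> simp_all
    · intro o
      cases o <;> simp [Inc]

theorem card_inc_le (z : Pt F) (E : Finset (Ln F)) (hE : ∀ m ∈ (Tri : Finset (Ln F)), Inc z m → m ∈ E) :
    Fintype.card F + 1 ≤
      (univ.filter (fun m : Ln F => Inc z m ∧ m ∉ (Tri : Finset (Ln F)))).card + E.card := by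
  refine le_trans (card_inc z) ?_
  refine le_trans (card_le_card ?_) (card_union_le _ _)
  intro m hm
  have h1 := (mem_filter.mp hm).2
  by_cases h2 : m ∈ (Tri : Finset (Ln F))
  · exact mem_union_right _ (hE m h2 h1)
  · exact mem_union_left _ (mem_filter.mpr ⟨mem_univ _, h1, h2⟩)

theorem card_through {h : ℕ} {w : Fin 3 → F} (G : Good h w) (z : Pt F) :
    2 ^ h - 1 ≤ (univ.filter (fun m : Ln F => Inc z m ∧ m ∉ (Tri : Finset (Ln F)))).card := by
  have key : ∀ m1 m2 : Ln F, (∀ m ∈ (Tri : Finset (Ln F)), Inc z m → m = m1 ∨ m = m2) →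
      2 ^ h - 1 ≤ (univ.filter (fun m : Ln F => Inc z m ∧ m ∉ (Tri : Finset (Ln F)))).card := by
    intro m1 m2 hm
    have h1 := card_inc_le z {m1, m2} (by
      intro m h1 h2
      simpa using hm m h1 h2)
    have h2 : ({m1, m2} : Finset (Ln F)).card ≤ 2 := card_le_two
    have h3 := G.card
    omega
  cases z with
  | aff a b =>
    refine key (.ver 0) (.sl 0 0) ?_
    intro m hm hi
    simp only [Tri, mem_insert, mem_singleton] at hm
    rcases hm with rfl | rfl | rfl
    · exact Or.inl rfl
    · exact Or.inr rfl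
    · exact absurd hi (by simp [Inc])
  | dir x =>
    refine key (.inf) (.sl 0 0) ?_
    intro m hm hi
    simp only [Tri, mem_insert, mem_singleton] at hm
    rcases hm with rfl | rfl | rfl
    · exact absurd hi (by simp [Inc])
    · exact Or.inr rfl
    · exact Or.inl rfl
  | vinf =>
    refine key (.inf) (.ver 0) ?_
    intro m hm hi
    simp only [Tri, mem_insert, mem_singleton] at hm
    rcases hm with rfl | rfl | rfl
    · exact Or.inr rfl
    · exact absurd hi (by simp [Inc])
    · exact Or.inl rfl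

omit [Fintype F] in
theorem sum_ge {w : Fin 3 → F} (S : Finset (Ln F)) {n : ℕ} (g : Fin n → Ln F)
    (hg : Function.Injective g) (hS : ∀ i, g i ∈ S) (c : Fin n → ℕ)
    (hc : ∀ i, c i ≤ (J w (g i)).card / 2) :
    S.card + ∑ i, c i ≤ ∑ m ∈ S, (1 + (J w m).card / 2) := by
  rw [sum_add_distrib]
  simp only [sum_const, smul_eq_mul, mul_one]
  refine Nat.add_le_add_left ?_ _
  calc ∑ i, c i ≤ ∑ i, (J w (g i)).card / 2 := sum_le_sum (fun i _ => hc i)
    _ = ∑ m ∈ univ.image g, (J w m).card / 2 := by
        rw [sum_image (fun i _ j _ hij => hg hij)]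
    _ ≤ ∑ m ∈ S, (J w m).card / 2 := by
        apply sum_le_sum_of_subset
        intro m hm
        obtain ⟨i, _, rfl⟩ := mem_image.mp hm
        exact hS i

omit [Fintype F] in
theorem J_conic {w : Fin 3 → F} (hw : ∀ i, w i ≠ 0) (k : Fin 3) {y : F} (hy : y ≠ 0) :
    (J w (.sl (w k * y ^ 2) y)).card / 2 = 5 := by
  have h1 : w k * y ^ 2 ≠ 0 := mul_ne_zero (hw k) (pow_ne_zero 2 hy)
  have h2 : ∃ k', w k * y ^ 2 = w k' * y ^ 2 := ⟨k, rfl⟩
  simp only [J, if_neg hy, if_neg h1, if_pos h2]
  decide

omit [Fintype F] in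
theorem J_ver {w : Fin 3 → F} {c : F} (hc : c ≠ 0) : (J w (.ver c)).card / 2 = 2 := by
  simp only [J, if_neg hc]
  decide

omit [Fintype F] in
theorem J_hor {w : Fin 3 → F} {y : F} (hy : y ≠ 0) : (J w (.sl 0 y)).card / 2 = 2 := by
  have h1 : J w (.sl 0 y) = JH := by simp [J, hy]
  rw [h1]
  decide

omit [Fintype F] in
theorem J_rad {w : Fin 3 → F} {x : F} (hx : x ≠ 0) : (J w (.sl x 0)).card / 2 = 2 := by
  have h1 : J w (.sl x 0) = JR := by simp [J, hx]
  rw [h1]
  decide

omit [Fintype F] in
theorem not_tri_sl {x y : F} (h : x ≠ 0 ∨ y ≠ 0) : (.sl x y : Ln F) ∉ (Tri : Finset (Ln F)) := by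
  simp only [Tri, mem_insert, mem_singleton, reduceCtorEq, Ln.sl.injEq, false_or, or_false, not_and]
  rintro rfl
  rcases h with h | h
  · exact absurd rfl h
  · exact h

omit [Fintype F] in
theorem not_tri_ver {c : F} (h : c ≠ 0) : (.ver c : Ln F) ∉ (Tri : Finset (Ln F)) := by
  simp only [Tri, mem_insert, mem_singleton, reduceCtorEq, Ln.ver.injEq, or_false]
  exact h

theorem cost_three {h : ℕ} {w : Fin 3 → F} (G : Good h w) (z : Pt F)
    (hz : ∀ m : Ln F, Inc z m → m ∉ (Tri : Finset (Ln F)) → (J w m).card / 2 = 2) :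
    2 ^ h + 17 ≤ ∑ m ∈ univ.filter (fun m : Ln F => Inc z m ∧ m ∉ (Tri : Finset (Ln F))),
      (1 + (J w m).card / 2) := by
  have h1 := card_through G z
  have h2 : ∑ m ∈ univ.filter (fun m : Ln F => Inc z m ∧ m ∉ (Tri : Finset (Ln F))),
      (1 + (J w m).card / 2) = ∑ m ∈ univ.filter (fun m : Ln F => Inc z m ∧ m ∉ (Tri : Finset (Ln F))),
      3 := by
    apply sum_congr rfl
    intro m hm
    have h3 := (mem_filter.mp hm).2
    rw [hz m h3.1 h3.2]
  rw [h2, sum_const, smul_eq_mul]
  have h4 : (2 : ℕ) ^ 9 ≤ 2 ^ h := Nat.pow_le_pow_right (by norm_num) G.h9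
  omega

/-- three conic lines and one more line -/
theorem cost_four {h : ℕ} {w : Fin 3 → F} (G : Good h w) (z : Pt F) (E : Ln F)
    (hE : ∀ m ∈ (Tri : Finset (Ln F)), Inc z m → m = E)
    (y : Fin 3 → F) (hy : ∀ i, y i ≠ 0) (hyi : ∀ i, Inc z (.sl (w i * y i ^ 2) (y i)))
    (hinj : ∀ i j, w i * y i ^ 2 = w j * y j ^ 2 → y i = y j → i = j)
    (m0 : Ln F) (hm0 : Inc z m0) (hm0T : m0 ∉ (Tri : Finset (Ln F)))
    (hm0J : (J w m0).card / 2 = 2) :
    2 ^ h + 17 ≤ ∑ m ∈ univ.filter (fun m : Ln F => Inc z m ∧ m ∉ (Tri : Finset (Ln F))),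
      (1 + (J w m).card / 2) := by
  have h1 := card_inc_le z {E} (by
    intro m h1 h2
    simpa using hE m h1 h2)
  rw [card_singleton, G.card] at h1
  have hne : ∀ i, (.sl (w i * y i ^ 2) (y i) : Ln F) ≠ m0 := by
    intro i hi
    have h2 := J_conic G.ne i (hy i)
    rw [hi, hm0J] at h2
    omega
  have h2 := sum_ge (w := w) (univ.filter (fun m : Ln F => Inc z m ∧ m ∉ (Tri : Finset (Ln F))))
    (n := 4) (Fin.cons m0 (fun i : Fin 3 => (.sl (w i * y i ^ 2) (y i) : Ln F))) ?_ ?_
    (Fin.cons 2 (fun _ => 5)) ?_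
  · have h3 : ∑ i : Fin 4, (Fin.cons 2 (fun _ => 5) : Fin 4 → ℕ) i = 17 := by decide
    rw [h3] at h2
    omega
  · rw [Fin.cons_injective_iff]
    refine ⟨?_, ?_⟩
    · rintro ⟨i, hi⟩
      exact hne i hi
    · intro i j hij
      simp only [Ln.sl.injEq] at hij
      exact hinj i j hij.1 hij.2
  · intro i
    refine Fin.cases ?_ (fun i => ?_) i
    · simp only [Fin.cons_zero]
      exact mem_filter.mpr ⟨mem_univ _, hm0, hm0T⟩
    · simp only [Fin.cons_succ]
      exact mem_filter.mpr ⟨mem_univ _, hyi i, not_tri_sl (Or.inr (hy i))⟩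
  · intro i
    refine Fin.cases ?_ (fun i => ?_) i
    · simp only [Fin.cons_zero]
      exact hm0J.ge
    · simp only [Fin.cons_succ]
      exact (J_conic G.ne i (hy i)).ge

/-- a generic point: the vertical, horizontal and radial line, and two conic lines -/
theorem cost_generic {h : ℕ} {w : Fin 3 → F} (G : Good h w) {a b : F} (ha : a ≠ 0) (hb : b ≠ 0) :
    2 ^ h + 17 ≤ ∑ m ∈ univ.filter (fun m : Ln F => Inc (.aff a b) m ∧ m ∉ (Tri : Finset (Ln F))),
      (1 + (J w m).card / 2) := by
  -- some trace vanishes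
  have h1h : 1 ≤ h := le_trans (by norm_num) G.h9
  obtain ⟨i, hi⟩ : ∃ i, T h (w i * (a * b)) = 0 := by
    by_cases hab : WP h w a b
    · obtain ⟨i, hi, _⟩ := exactly_one G hab
      exact ⟨i, hi⟩
    · refine ⟨0, ?_⟩
      by_contra h0
      exact hab ⟨0, h0⟩
  obtain ⟨ζ, hζ⟩ := exists_of_T_eq_zero h1h G.card G.two _ hi
  have hwi := G.ne i
  have hwa : w i * a ≠ 0 := mul_ne_zero hwi ha
  have hprod : ζ * (ζ + 1) ≠ 0 := by
    have : ζ * (ζ + 1) = w i * (a * b) := by rw [← hζ]; ring
    rw [this]
    exact mul_ne_zero hwi (mul_ne_zero ha hb)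
  have hζ0 : ζ ≠ 0 := left_ne_zero_of_mul hprod
  have hζ1 : ζ + 1 ≠ 0 := right_ne_zero_of_mul hprod
  have hcon : ∀ ξ : F, ξ ^ 2 + ξ = w i * (a * b) →
      Inc (.aff a b) (.sl (w i * (ξ / (w i * a)) ^ 2) (ξ / (w i * a))) := by
    intro ξ hξ
    simp only [Inc]
    have e1 : w i * a * b = w i * a * (w i * (ξ / (w i * a)) ^ 2 * a + ξ / (w i * a)) := by
      have e2 : w i * a * (ξ / (w i * a)) = ξ := mul_div_cancel₀ _ hwa
      calc w i * a * b = w i * (a * b) := by ring
        _ = ξ ^ 2 + ξ := hξ.symm
        _ = (w i * a * (ξ / (w i * a))) ^ 2 + w i * a * (ξ / (w i * a)) := by rw [e2]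
        _ = _ := by ring
    exact mul_left_cancel₀ hwa e1
  have hζ' : (ζ + 1) ^ 2 + (ζ + 1) = w i * (a * b) := by
    rw [← hζ]
    linear_combination (ζ + 1) * G.two
  have hc1 := hcon ζ hζ
  have hc2 := hcon (ζ + 1) hζ'
  have hy1 : ζ / (w i * a) ≠ 0 := div_ne_zero hζ0 hwa
  have hy2 : (ζ + 1) / (w i * a) ≠ 0 := div_ne_zero hζ1 hwa
  have hyne : ζ / (w i * a) ≠ (ζ + 1) / (w i * a) := by
    intro h0
    rw [div_left_inj' hwa] at h0
    have : (1 : F) = 0 := by linear_combination -h0
    exact one_ne_zero this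
  have hslne1 := mul_ne_zero hwi (pow_ne_zero 2 hy1)
  have hslne2 := mul_ne_zero hwi (pow_ne_zero 2 hy2)
  have hba : b / a ≠ 0 := div_ne_zero hb ha
  have h1 := card_inc_le (.aff a b) ∅ (by
    intro m h1 h2
    exfalso
    simp only [Tri, mem_insert, mem_singleton] at h1
    rcases h1 with rfl | rfl | rfl
    · exact ha h2
    · simp only [Inc, zero_mul, add_zero] at h2
      exact hb h2
    · exact h2)
  rw [card_empty, G.card] at h1
  have h2 := sum_ge (w := w) (univ.filter (fun m : Ln F => Inc (.aff a b) m ∧ m ∉ (Tri : Finset (Ln F))))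
    (n := 5) ![.ver a, .sl 0 b, .sl (b / a) 0, .sl (w i * (ζ / (w i * a)) ^ 2) (ζ / (w i * a)),
      .sl (w i * ((ζ + 1) / (w i * a)) ^ 2) ((ζ + 1) / (w i * a))] ?_ ?_
    ![2, 2, 2, 5, 5] ?_
  · have h3 : ∑ i : Fin 5, (![2, 2, 2, 5, 5] : Fin 5 → ℕ) i = 16 := by decide
    rw [h3] at h2
    omega
  · intro p q hpq
    fin_cases p <;> fin_cases q <;> simp [Ln.sl.injEq, hb, hba, hb.symm, hba.symm, hy1, hy1.symm, hy2, hy2.symm,
      hyne, hyne.symm, hslne1, hslne1.symm, hslne2, hslne2.symm] at hpq ⊢
  · intro p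
    rw [mem_filter]
    refine ⟨mem_univ _, ?_⟩
    fin_cases p
    · exact ⟨rfl, not_tri_ver ha⟩
    · refine ⟨?_, not_tri_sl (Or.inr hb)⟩
      simp [Inc]
    · refine ⟨?_, not_tri_sl (Or.inl hba)⟩
      simp [Inc, ha]
    · exact ⟨hc1, not_tri_sl (Or.inr hy1)⟩
    · exact ⟨hc2, not_tri_sl (Or.inr hy2)⟩
  · intro p
    fin_cases p
    · exact (J_ver ha).ge
    · exact (J_hor hb).ge
    · exact (J_rad hba).ge
    · exact (J_conic G.ne i hy1).ge
    · exact (J_conic G.ne i hy2).ge

theorem cost {h : ℕ} {w : Fin 3 → F} (G : Good h w) (z : Pt F) :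
    2 ^ h + 17 ≤ ∑ m ∈ univ.filter (fun m : Ln F => Inc z m ∧ m ∉ (Tri : Finset (Ln F))),
      (1 + (J w m).card / 2) := by
  cases z with
  | aff a b =>
    by_cases ha : a = 0
    · by_cases hb : b = 0
      · subst ha hb
        refine cost_three G _ ?_
        intro m hm hT
        cases m with
        | sl x y =>
          simp only [Inc, mul_zero, zero_add] at hm
          subst hm
          refine J_rad ?_
          rintro rfl
          exact hT (by simp [Tri])
        | ver c =>
          simp only [Inc] at hm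
          subst hm
          exact absurd (by simp [Tri]) hT
        | inf => exact absurd (by simp [Tri]) hT
      · subst ha
        refine cost_four G _ (.ver 0) ?_ (fun _ => b) (fun _ => hb) ?_ ?_ (.sl 0 b) ?_
          (not_tri_sl (Or.inr hb)) (J_hor hb)
        · intro m h1 h2
          simp only [Tri, mem_insert, mem_singleton] at h1
          rcases h1 with rfl | rfl | rfl
          · rfl
          · simp only [Inc, zero_mul, add_zero] at h2
            exact absurd h2 hb
          · exact absurd h2 (by simp [Inc])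
        · intro i
          simp [Inc]
        · intro i j hij _
          exact G.inj (mul_right_cancel₀ (pow_ne_zero 2 hb) hij)
        · simp [Inc]
    · by_cases hb : b = 0
      · subst hb
        have hne : ∀ i, 1 / (w i * a) ≠ 0 := fun i => one_div_ne_zero (mul_ne_zero (G.ne i) ha)
        refine cost_four G _ (.sl 0 0) ?_ (fun i => 1 / (w i * a)) hne ?_ ?_ (.ver a) ?_
          (not_tri_ver ha) (J_ver ha)
        · intro m h1 h2
          simp only [Tri, mem_insert, mem_singleton] at h1
          rcases h1 with rfl | rfl | rfl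
          · exact absurd h2 ha
          · rfl
          · exact absurd h2 (by simp [Inc])
        · intro i
          simp only [Inc]
          have hw := G.ne i
          have e1 : w i * (1 / (w i * a)) ^ 2 * a = 1 / (w i * a) := by
            field_simp
          rw [e1]
          linear_combination -(1 / (w i * a)) * G.two
        · intro i j _ hij
          have hwi := G.ne i
          have hwj := G.ne j
          apply G.inj
          simp only [one_div, inv_inj] at hij
          exact mul_right_cancel₀ ha hij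
        · simp [Inc]
      · exact cost_generic G ha hb
  | dir x =>
    by_cases hx : x = 0
    · subst hx
      refine cost_three G _ ?_
      intro m hm hT
      cases m with
      | sl x y =>
        simp only [Inc] at hm
        subst hm
        refine J_hor ?_
        rintro rfl
        exact hT (by simp [Tri])
      | ver c => exact absurd hm (by simp [Inc])
      | inf => exact absurd (by simp [Tri]) hT
    · choose s hs using fun i => exists_sqrt G.two (x / w i)
      have hs0 : ∀ i, s i ≠ 0 := by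
        intro i h0
        have h1 := hs i
        rw [h0] at h1
        have h2 : x / w i ≠ 0 := div_ne_zero hx (G.ne i)
        apply h2
        rw [← h1]
        ring
      have hws : ∀ i, w i * s i ^ 2 = x := by
        intro i
        rw [hs i]
        exact mul_div_cancel₀ _ (G.ne i)
      refine cost_four G _ .inf ?_ s hs0 ?_ ?_ (.sl x 0) ?_
        (not_tri_sl (Or.inl hx)) (J_rad hx)
      · intro m h1 h2
        simp only [Tri, mem_insert, mem_singleton] at h1
        rcases h1 with rfl | rfl | rfl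
        · exact absurd h2 (by simp [Inc])
        · simp only [Inc] at h2
          exact absurd h2 hx
        · rfl
      · intro i
        simp only [Inc]
        exact (hws i).symm
      · intro i j hij hij'
        rw [hij'] at hij
        exact G.inj (mul_right_cancel₀ (pow_ne_zero 2 (hs0 j)) hij)
      · simp [Inc]
  | vinf =>
    refine cost_three G _ ?_
    intro m hm hT
    cases m with
    | sl x y => exact absurd hm (by simp [Inc])
    | ver c =>
      refine J_ver ?_
      rintro rfl
      exact hT (by simp [Tri])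
    | inf => exact absurd (by simp [Tri]) hT

end Vale.Agent.P045
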