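import Vale.Agent.Lib.P045.Defs

/-!
# P045: facts about the trace polynomial
-/

namespace Vale.Agent.P045

open Finset

variable {F : Type} [Field F] [Fintype F] [DecidableEq F]

theorem trace_charP (h2 : (2 : F) = 0) : CharP F 2 :=
  CharTwo.of_one_ne_zero_of_two_eq_zero one_ne_zero h2

theorem T_add {h : ℕ} (h2 : (2 : F) = 0) (x y : F) : T h (x + y) = T h x + T h y := by
  have := trace_charP h2
  unfold T
  rw [← Finset.sum_add_distrib]
  refine Finset.sum_congr rfl fun i _ => ?_
  exact add_pow_char_pow x y 2 i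

theorem trace_zero (h : ℕ) : T h (0 : F) = 0 := by
  unfold T
  refine Finset.sum_eq_zero fun i _ => ?_
  exact zero_pow (by positivity)

theorem trace_T_sq_eq {h : ℕ} (h2 : (2 : F) = 0) (x : F) : T h x ^ 2 = T h (x ^ 2) := by
  have := trace_charP h2
  unfold T
  rw [sum_pow_char 2]
  refine Finset.sum_congr rfl fun i _ => ?_
  rw [← pow_mul, ← pow_mul, mul_comm]

theorem T_sq {h : ℕ} (hh : 1 ≤ h) (hq : Fintype.card F = 2 ^ h) (h2 : (2 : F) = 0)
    (x : F) : T h (x ^ 2) = T h x := by
  obtain ⟨k, rfl⟩ : ∃ k, h = k + 1 := ⟨h - 1, by omega⟩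
  unfold T
  have e1 : ∀ i, (x ^ 2) ^ 2 ^ i = x ^ 2 ^ (i + 1) := by
    intro i
    rw [← pow_mul, pow_succ 2 i, mul_comm]
  simp only [e1]
  rw [Finset.sum_range_succ, Finset.sum_range_succ' (fun i => x ^ 2 ^ i), ← hq,
    FiniteField.pow_card]
  simp

theorem T_eq_zero_or_one {h : ℕ} (hh : 1 ≤ h) (hq : Fintype.card F = 2 ^ h) (h2 : (2 : F) = 0)
    (x : F) : T h x = 0 ∨ T h x = 1 := by
  have h3 : T h x ^ 2 = T h x := by rw [trace_T_sq_eq h2, T_sq hh hq h2]
  have h4 : T h x * (T h x - 1) = 0 := by linear_combination h3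
  rcases mul_eq_zero.mp h4 with h5 | h5
  · exact Or.inl h5
  · exact Or.inr (sub_eq_zero.mp h5)

theorem trace_card_zero {h : ℕ} (hh : 1 ≤ h) :
    (univ.filter (fun x : F => T h x = 0)).card ≤ 2 ^ (h - 1) := by
  classical
  obtain ⟨k, rfl⟩ : ∃ k, h = k + 1 := ⟨h - 1, by omega⟩
  set p : Polynomial F := ∑ i ∈ Finset.range (k + 1), Polynomial.X ^ (2 ^ i) with hp
  have hcoeff : p.coeff (2 ^ k) = 1 := by
    rw [hp, Polynomial.finsetSum_coeff]
    simp only [Polynomial.coeff_X_pow]
    rw [Finset.sum_eq_single k]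
    · simp
    · intro i _ hi
      rw [if_neg]
      intro h0
      exact hi (Nat.pow_right_injective (le_refl 2) h0).symm
    · intro h0
      exact absurd (Finset.mem_range.mpr (Nat.lt_succ_self k)) h0
  have hp0 : p ≠ 0 := by
    intro h0
    rw [h0, Polynomial.coeff_zero] at hcoeff
    exact zero_ne_one hcoeff
  have hdeg : p.natDegree ≤ 2 ^ k := by
    rw [hp]
    apply Polynomial.natDegree_sum_le_of_forall_le
    intro i hi
    rw [Polynomial.natDegree_X_pow]
    exact Nat.pow_le_pow_right (by norm_num) (by have := Finset.mem_range.mp hi; omega)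
  have heval : ∀ x, p.eval x = T (k + 1) x := by
    intro x
    rw [hp, Polynomial.eval_finsetSum]
    simp [T]
  have hsub : univ.filter (fun x : F => T (k + 1) x = 0) ⊆ p.roots.toFinset := by
    intro x hx
    rw [Finset.mem_filter] at hx
    rw [Multiset.mem_toFinset, Polynomial.mem_roots hp0, Polynomial.IsRoot.def, heval]
    exact hx.2
  calc (univ.filter (fun x : F => T (k + 1) x = 0)).card ≤ p.roots.toFinset.card :=
        Finset.card_le_card hsub
    _ ≤ Multiset.card p.roots := Multiset.toFinset_card_le _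
    _ ≤ p.natDegree := Polynomial.card_roots' p
    _ ≤ 2 ^ (k + 1 - 1) := hdeg

/-- additive Hilbert 90 -/
theorem exists_of_T_eq_zero {h : ℕ} (hh : 1 ≤ h) (hq : Fintype.card F = 2 ^ h)
    (h2 : (2 : F) = 0) (x : F) (hx : T h x = 0) : ∃ ζ : F, ζ ^ 2 + ζ = x := by
  have hchar := trace_charP h2
  set S : Finset F := univ.filter (fun x : F => T h x = 0) with hS
  set I : Finset F := univ.image (fun ζ : F => ζ ^ 2 + ζ) with hI
  have hIS : I ⊆ S := by
    intro y hy
    rw [hI, Finset.mem_image] at hy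
    obtain ⟨ζ, -, rfl⟩ := hy
    rw [hS, Finset.mem_filter]
    refine ⟨Finset.mem_univ _, ?_⟩
    rw [T_add h2, T_sq hh hq h2]
    exact CharTwo.add_self_eq_zero _
  have hfib : (univ : Finset F).card ≤ 2 * I.card := by
    apply Finset.card_le_mul_card_image
    intro y hy
    obtain ⟨ζ₀, -, rfl⟩ := Finset.mem_image.mp hy
    have hsub : univ.filter (fun ζ : F => ζ ^ 2 + ζ = ζ₀ ^ 2 + ζ₀) ⊆ {ζ₀, ζ₀ + 1} := by
      intro ζ hζ
      have h3 := (Finset.mem_filter.mp hζ).2
      have h4 : (ζ - ζ₀) * (ζ + ζ₀ + 1) = 0 := by linear_combination h3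
      rw [Finset.mem_insert, Finset.mem_singleton]
      rcases mul_eq_zero.mp h4 with h5 | h5
      · exact Or.inl (sub_eq_zero.mp h5)
      · right
        have h6 : ζ = -(ζ₀ + 1) := by linear_combination h5
        rw [h6]
        exact CharTwo.neg_eq _
    exact (Finset.card_le_card hsub).trans Finset.card_le_two
  have hcard : S.card ≤ I.card := by
    have h3 : S.card ≤ 2 ^ (h - 1) := trace_card_zero (F := F) hh
    rw [Finset.card_univ, hq] at hfib
    clear_value S I
    obtain ⟨k, rfl⟩ : ∃ k, h = k + 1 := ⟨h - 1, by omega⟩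
    rw [pow_succ] at hfib
    simp only [Nat.add_sub_cancel] at h3
    omega
  have heq := Finset.eq_of_subset_of_card_le hIS hcard
  have hxI : x ∈ I := by
    rw [heq, hS, Finset.mem_filter]
    exact ⟨Finset.mem_univ _, hx⟩
  obtain ⟨ζ, -, hζ⟩ := Finset.mem_image.mp hxI
  exact ⟨ζ, hζ⟩

theorem exists_T_eq_one {h : ℕ} (hh : 1 ≤ h) (hq : Fintype.card F = 2 ^ h)
    (h2 : (2 : F) = 0) : ∃ x : F, T h x = 1 := by
  by_contra hno
  push Not at hno
  have h3 := trace_card_zero (F := F) hh
  have h4 : univ.filter (fun x : F => T h x = 0) = univ := by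
    apply Finset.filter_true_of_mem
    intro x _
    exact (T_eq_zero_or_one hh hq h2 x).resolve_right (hno x)
  rw [h4, Finset.card_univ, hq] at h3
  have h5 : 2 ^ (h - 1) < 2 ^ h := Nat.pow_lt_pow_right (by norm_num) (by omega)
  omega

/-- For a word point exactly one of the three traces is zero. -/
theorem exactly_one {h : ℕ} {w : Fin 3 → F} (G : Good h w) {a b : F} (hab : WP h w a b) :
    ∃ i, T h (w i * (a * b)) = 0 ∧ ∀ k, k ≠ i → T h (w k * (a * b)) = 1 := by
  have hh : 1 ≤ h := le_trans (by norm_num) G.h9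
  have hz := fun k => T_eq_zero_or_one hh G.card G.two (w k * (a * b))
  have hsum : T h (w 0 * (a * b)) + T h (w 1 * (a * b)) + T h (w 2 * (a * b)) = 0 := by
    rw [← T_add G.two, ← T_add G.two, ← add_mul, ← add_mul, G.sum, zero_mul, trace_zero]
  have h11 : (1 : F) + 1 = 0 := by rw [one_add_one_eq_two]; exact G.two
  obtain ⟨k, hk⟩ := hab
  have hne : ¬ (T h (w 0 * (a * b)) = 0 ∧ T h (w 1 * (a * b)) = 0 ∧ T h (w 2 * (a * b)) = 0) := by
    rintro ⟨h0, h1, h3⟩
    fin_cases k
    · exact hk h0
    · exact hk h1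
    · exact hk h3
  rcases hz 0 with h0 | h0 <;> rcases hz 1 with h1 | h1 <;> rcases hz 2 with h3 | h3
  · exact absurd ⟨h0, h1, h3⟩ hne
  · rw [h0, h1, h3] at hsum
    simp at hsum
  · rw [h0, h1, h3] at hsum
    simp at hsum
  · refine ⟨0, h0, fun k hk => ?_⟩
    fin_cases k
    · exact absurd rfl hk
    · exact h1
    · exact h3
  · rw [h0, h1, h3] at hsum
    simp at hsum
  · refine ⟨1, h1, fun k hk => ?_⟩
    fin_cases k
    · exact h0
    · exact absurd rfl hk
    · exact h3
  · refine ⟨2, h3, fun k hk => ?_⟩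
    fin_cases k
    · exact h0
    · exact h1
    · exact absurd rfl hk
  · rw [h0, h1, h3, h11, zero_add] at hsum
    exact absurd hsum one_ne_zero

theorem exists_good (h : ℕ) (hh : 9 ≤ h) : ∃ (F : Type) (_ : Field F) (_ : Fintype F)
    (_ : DecidableEq F) (w : Fin 3 → F), Good h w := by
  classical
  let K := GaloisField 2 h
  let _ : Fintype K := Fintype.ofFinite K
  have hcard : Fintype.card K = 2 ^ h := by
    rw [← Nat.card_eq_fintype_card]
    exact GaloisField.card 2 h (by omega)
  have h2 : (2 : K) = 0 := CharP.cast_eq_zero K 2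
  have hlt : 2 < Fintype.card K := by
    rw [hcard]
    calc 2 < 2 ^ 9 := by norm_num
      _ ≤ 2 ^ h := Nat.pow_le_pow_right (by norm_num) hh
  obtain ⟨x, hx⟩ : ∃ x : K, x ∉ ({0, 1} : Finset K) := by
    by_contra hno
    push Not at hno
    have h3 : (univ : Finset K) ⊆ {0, 1} := fun x _ => hno x
    have h4 := Finset.card_le_card h3
    rw [Finset.card_univ] at h4
    have h5 : ({0, 1} : Finset K).card ≤ 2 := Finset.card_le_two
    omega
  rw [Finset.mem_insert, Finset.mem_singleton, not_or] at hx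
  obtain ⟨hx0, hx1⟩ := hx
  have hx1' : (1 : K) + x ≠ 0 := by
    intro h0
    apply hx1
    linear_combination h0 - h2
  refine ⟨K, inferInstance, inferInstance, inferInstance, ![1, x, 1 + x], hh, hcard, h2, ?_, ?_, ?_⟩
  · intro i
    fin_cases i
    · exact one_ne_zero
    · exact hx0
    · exact hx1'
  · intro i j hij
    fin_cases i <;> fin_cases j
    · rfl
    · exact absurd hij.symm hx1
    · exfalso
      have h3 : (1 : K) = 1 + x := hij
      exact hx0 (by linear_combination -h3)
    · exact absurd hij hx1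
    · rfl
    · exfalso
      have h3 : x = 1 + x := hij
      exact one_ne_zero (α := K) (by linear_combination -h3)
    · exfalso
      have h3 : (1 : K) + x = 1 := hij
      exact hx0 (by linear_combination h3)
    · exfalso
      have h3 : 1 + x = x := hij
      exact one_ne_zero (α := K) (by linear_combination h3)
    · rfl
  · show (1 : K) + x + (1 + x) = 0
    linear_combination (1 + x) * h2

end Vale.Agent.P045
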