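import Vale.Agent.Lib.P045.Defs
import Vale.Agent.Lib.P045.Trace

/-!
# P045, module EX: existence of words, gadget lemma
-/

namespace Vale.Agent.P045

open Finset

variable {F : Type} [Field F] [Fintype F] [DecidableEq F]

/-! ## Finite combinatorics of the colours -/

/-- colour sets of the five special lines through a word point: two conic lines, vertical,
horizontal, radial -/
def Jc : Fin 5 → Finset (Fin 16)
  | 0 => JC
  | 1 => JC
  | 2 => JV
  | 3 => JH
  | 4 => JR

/-- abstract words -/
def AW (c : Fin 16 → Fin 5) : Prop :=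
  (∀ j, j ∈ Jc (c j)) ∧ ∀ i, 2 * (univ.filter (fun j => c j = i)).card = (Jc i).card

instance (c : Fin 16 → Fin 5) : Decidable (AW c) := by unfold AW; infer_instance

/-- assignment of the conic colours: `X` to the line `s`, the rest to the other line; default
assignment for the triangle -/
def cCon (s : Bool) (X : Finset (Fin 16)) (j : Fin 16) : Fin 5 :=
  if j ∈ X then (if s then 1 else 0)
  else if j ∈ JC then (if s then 0 else 1)
  else if j ∈ ({10, 11} : Finset (Fin 16)) then 2
  else if j ∈ ({12, 13} : Finset (Fin 16)) then 3 else 4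

/-- assignments with `X` prescribed on the vertical line -/
def cV (X : Finset (Fin 16)) (j : Fin 16) : Fin 5 :=
  if j ∈ X then 2
  else if j ∈ ({0, 1, 2, 3, 4} : Finset (Fin 16)) then 0
  else if j ∈ ({5, 6, 7, 8, 9} : Finset (Fin 16)) then 1
  else if j ∈ ({10, 11} : Finset (Fin 16)) then 3
  else if j = 12 then (if 10 ∈ X ∨ 11 ∈ X then 3 else 4)
  else if j = 13 then (if 10 ∈ X ∧ 11 ∈ X then 3 else 4)
  else 4

/-- assignments with `X` prescribed on the horizontal line -/
def cH (X : Finset (Fin 16)) (j : Fin 16) : Fin 5 :=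
  if j ∈ X then 3
  else if j ∈ ({0, 1, 2, 3, 4} : Finset (Fin 16)) then 0
  else if j ∈ ({5, 6, 7, 8, 9} : Finset (Fin 16)) then 1
  else if j ∈ ({10, 11} : Finset (Fin 16)) then 2
  else if j = 14 then (if 10 ∈ X ∨ 11 ∈ X then 2 else 4)
  else if j = 15 then (if 10 ∈ X ∧ 11 ∈ X then 2 else 4)
  else 4

/-- assignments with `X` prescribed on the radial line -/
def cR (X : Finset (Fin 16)) (j : Fin 16) : Fin 5 :=
  if j ∈ X then 4
  else if j ∈ ({0, 1, 2, 3, 4} : Finset (Fin 16)) then 0
  else if j ∈ ({5, 6, 7, 8, 9} : Finset (Fin 16)) then 1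
  else if j ∈ ({12, 13} : Finset (Fin 16)) then 3
  else if j = 10 then (if 12 ∈ X ∨ 13 ∈ X then 3 else 2)
  else if j = 11 then (if 12 ∈ X ∧ 13 ∈ X then 3 else 2)
  else 2

set_option maxRecDepth 10000 in
theorem pow_V : powersetCard 2 JV = {{10, 11}, {10, 14}, {10, 15}, {11, 14}, {11, 15}, {14, 15}} := by
  decide

set_option maxRecDepth 10000 in
theorem aw_V (X : Finset (Fin 16)) (hX : X ∈ powersetCard 2 JV) :
    AW (cV X) ∧ univ.filter (fun j => cV X j = 2) = X := by
  rw [pow_V] at hX
  simp only [mem_insert, mem_singleton] at hX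
  rcases hX with rfl | rfl | rfl | rfl | rfl | rfl <;> decide

set_option maxRecDepth 10000 in
theorem pow_H : powersetCard 2 JH = {{10, 11}, {10, 12}, {10, 13}, {11, 12}, {11, 13}, {12, 13}} := by
  decide

set_option maxRecDepth 10000 in
theorem aw_H (X : Finset (Fin 16)) (hX : X ∈ powersetCard 2 JH) :
    AW (cH X) ∧ univ.filter (fun j => cH X j = 3) = X := by
  rw [pow_H] at hX
  simp only [mem_insert, mem_singleton] at hX
  rcases hX with rfl | rfl | rfl | rfl | rfl | rfl <;> decide

set_option maxRecDepth 10000 in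
theorem pow_R : powersetCard 2 JR = {{12, 13}, {12, 14}, {12, 15}, {13, 14}, {13, 15}, {14, 15}} := by
  decide

set_option maxRecDepth 10000 in
theorem aw_R (X : Finset (Fin 16)) (hX : X ∈ powersetCard 2 JR) :
    AW (cR X) ∧ univ.filter (fun j => cR X j = 4) = X := by
  rw [pow_R] at hX
  simp only [mem_insert, mem_singleton] at hX
  rcases hX with rfl | rfl | rfl | rfl | rfl | rfl <;> decide

/-- the default part of `cCon` -/
def cd (j : Fin 16) : Fin 5 :=
  if j ∈ ({10, 11} : Finset (Fin 16)) then 2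
  else if j ∈ ({12, 13} : Finset (Fin 16)) then 3 else 4

theorem cCon_of_mem {s : Bool} {X : Finset (Fin 16)} {j : Fin 16} (h : j ∈ X) :
    cCon s X j = if s then 1 else 0 := by
  rw [cCon, if_pos h]

theorem cCon_of_mem_JC {s : Bool} {X : Finset (Fin 16)} {j : Fin 16} (h : j ∉ X) (h' : j ∈ JC) :
    cCon s X j = if s then 0 else 1 := by
  rw [cCon, if_neg h, if_pos h']

theorem cCon_of_not_mem {s : Bool} {X : Finset (Fin 16)} (hX : X ⊆ JC) {j : Fin 16}
    (h : j ∉ JC) : cCon s X j = cd j := by
  rw [cCon, if_neg (fun h' => h (hX h')), if_neg h, cd]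

set_option maxRecDepth 10000 in
theorem cd_mem : ∀ j, j ∉ JC → j ∈ Jc (cd j) := by
  decide

set_option maxRecDepth 10000 in
theorem cd_card : ∀ i : Fin 5, i ≠ 0 → i ≠ 1 →
    2 * (univ.filter (fun j => j ∉ JC ∧ cd j = i)).card = (Jc i).card := by
  decide

set_option maxRecDepth 10000 in
theorem cd_ne : ∀ j, cd j ≠ 0 ∧ cd j ≠ 1 := by
  decide

theorem card_JC : JC.card = 10 := by decide

theorem con_fiber {s : Bool} {X : Finset (Fin 16)} (hX : X ⊆ JC) :
    univ.filter (fun j => cCon s X j = if s then 1 else 0) = X := by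
  ext j
  rw [mem_filter]
  constructor
  · rintro ⟨-, h⟩
    by_contra hj
    by_cases h' : j ∈ JC
    · rw [cCon_of_mem_JC hj h'] at h
      revert h
      cases s <;> decide
    · rw [cCon_of_not_mem hX h'] at h
      have := cd_ne j
      cases s
      · exact this.1 h
      · exact this.2 h
  · intro h
    exact ⟨mem_univ _, cCon_of_mem h⟩

theorem con_fiber' {s : Bool} {X : Finset (Fin 16)} (hX : X ⊆ JC) :
    univ.filter (fun j => cCon s X j = if s then 0 else 1) = JC \ X := by
  ext j
  rw [mem_filter, mem_sdiff]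
  constructor
  · rintro ⟨-, h⟩
    by_cases hj : j ∈ X
    · exfalso
      rw [cCon_of_mem hj] at h
      revert h
      cases s <;> decide
    · refine ⟨?_, hj⟩
      by_contra h'
      rw [cCon_of_not_mem hX h'] at h
      have := cd_ne j
      cases s
      · exact this.2 h
      · exact this.1 h
  · rintro ⟨h', h⟩
    exact ⟨mem_univ _, cCon_of_mem_JC h h'⟩

theorem aw_con {s : Bool} {X : Finset (Fin 16)} (hX : X ⊆ JC) (hc : 2 * X.card = 10) :
    AW (cCon s X) := by
  have hc' : (JC \ X).card = 5 := by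
    rw [card_sdiff_of_subset hX, card_JC]
    omega
  refine ⟨fun j => ?_, fun i => ?_⟩
  · by_cases hj : j ∈ X
    · rw [cCon_of_mem hj]
      cases s <;> exact hX hj
    · by_cases h' : j ∈ JC
      · rw [cCon_of_mem_JC hj h']
        cases s <;> exact h'
      · rw [cCon_of_not_mem hX h']
        exact cd_mem j h'
  · by_cases h0 : i = 0 ∨ i = 1
    · have hJ : (Jc i).card = 10 := by
        rcases h0 with rfl | rfl <;> exact card_JC
      rw [hJ]
      have h1 := con_fiber (s := s) hX
      have h2 := con_fiber' (s := s) hX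
      rcases h0 with rfl | rfl <;> cases s
      · simp only [Bool.false_eq_true, if_false] at h1
        rw [h1, hc]
      · simp only [if_true] at h2
        rw [h2, hc']
      · simp only [Bool.false_eq_true, if_false] at h2
        rw [h2, hc']
      · simp only [if_true] at h1
        rw [h1, hc]
    · rw [not_or] at h0
      rw [← cd_card i h0.1 h0.2]
      congr 2
      ext j
      rw [mem_filter, mem_filter]
      refine and_congr_right fun _ => ?_
      by_cases hj : j ∈ JC
      · have h3 : cCon s X j = 0 ∨ cCon s X j = 1 := by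
          by_cases hjX : j ∈ X
          · rw [cCon_of_mem hjX]
            cases s
            · left; rfl
            · right; rfl
          · rw [cCon_of_mem_JC hjX hj]
            cases s
            · right; rfl
            · left; rfl
        constructor
        · intro h4
          rcases h3 with h3 | h3
          · exact absurd (h4.symm.trans h3) h0.1
          · exact absurd (h4.symm.trans h3) h0.2
        · intro h4
          exact absurd hj h4.1
      · rw [cCon_of_not_mem hX hj]
        exact ⟨fun h => ⟨hj, h⟩, fun h => h.2⟩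

theorem card_Jc : ∀ i : Fin 5, (Jc i).card = if i = 0 ∨ i = 1 then 10 else 4 := by
  decide

/-- abstract words with a prescribed fiber -/
theorem exists_aw (i : Fin 5) (X : Finset (Fin 16)) (hX : X ⊆ Jc i)
    (hXc : 2 * X.card = (Jc i).card) :
    ∃ c, AW c ∧ univ.filter (fun j => c j = i) = X := by
  fin_cases i
  · have h10 : 2 * X.card = 10 := hXc.trans card_JC
    exact ⟨cCon false X, aw_con hX h10, con_fiber (s := false) hX⟩
  · have h10 : 2 * X.card = 10 := hXc.trans card_JC
    exact ⟨cCon true X, aw_con hX h10, con_fiber (s := true) hX⟩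
  · have h4 : 2 * X.card = 4 := hXc
    exact ⟨cV X, aw_V X (mem_powersetCard.2 ⟨hX, by omega⟩)⟩
  · have h4 : 2 * X.card = 4 := hXc
    exact ⟨cH X, aw_H X (mem_powersetCard.2 ⟨hX, by omega⟩)⟩
  · have h4 : 2 * X.card = 4 := hXc
    exact ⟨cR X, aw_R X (mem_powersetCard.2 ⟨hX, by omega⟩)⟩

/-! ## The five special lines through a word point -/

section Lines

variable {h : ℕ} {w : Fin 3 → F}

/-- the five lines; `z` is a root of `z^2 + z = w_i a b` -/
def Ls (wi a b z : F) : Fin 5 → Ln F
  | 0 => .sl (wi * (z / (a * wi)) ^ 2) (z / (a * wi))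
  | 1 => .sl (wi * ((z + 1) / (a * wi)) ^ 2) ((z + 1) / (a * wi))
  | 2 => .ver a
  | 3 => .sl 0 b
  | 4 => .sl (b / a) 0

variable (G : Good h w)
include G

theorem add_self_eq (x : F) : x + x = 0 := by
  rw [← two_mul, G.two, zero_mul]

theorem T_zero' : T h (0 : F) = 0 := by
  unfold T
  refine sum_eq_zero fun i _ => ?_
  exact zero_pow (pow_ne_zero _ two_ne_zero)

theorem wp_ne {a b : F} (hab : WP h w a b) : a ≠ 0 ∧ b ≠ 0 := by
  obtain ⟨k, hk⟩ := hab
  constructor
  · rintro rfl
    rw [zero_mul, mul_zero] at hk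
    exact hk (T_zero' G)
  · rintro rfl
    rw [mul_zero, mul_zero] at hk
    exact hk (T_zero' G)

omit G in
theorem inc_conic {wi a b z : F} (ha : a ≠ 0) (hwi : wi ≠ 0) (hz : z ^ 2 + z = wi * (a * b)) :
    b = wi * (z / (a * wi)) ^ 2 * a + z / (a * wi) := by
  have h1 : wi * (z / (a * wi)) ^ 2 * a + z / (a * wi) = (z ^ 2 + z) / (a * wi) := by
    field_simp
  rw [h1, hz]
  field_simp

theorem z_ne {wi a b z : F} (hab : wi * (a * b) ≠ 0) (hz : z ^ 2 + z = wi * (a * b)) :
    z ≠ 0 ∧ z + 1 ≠ 0 := by
  constructor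
  · rintro rfl
    apply hab
    rw [← hz]
    ring
  · intro h0
    apply hab
    rw [← hz]
    have : z ^ 2 + z = z * (z + 1) := by ring
    rw [this, h0, mul_zero]

theorem z_succ {z c : F} (hz : z ^ 2 + z = c) : (z + 1) ^ 2 + (z + 1) = c := by
  have h1 : (z + 1) ^ 2 + (z + 1) = z ^ 2 + z + (1 + 1) * (z + 1) := by ring
  rw [h1, add_self_eq G, zero_mul, add_zero, hz]

theorem inc_Ls {i : Fin 3} {a b z : F} (ha : a ≠ 0) (hz : z ^ 2 + z = w i * (a * b)) (l : Fin 5) :
    Inc (.aff a b) (Ls (w i) a b z l) := by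
  fin_cases l
  · exact inc_conic ha (G.ne i) hz
  · exact inc_conic ha (G.ne i) (z_succ G hz)
  · rfl
  · change b = 0 * a + b
    ring
  · change b = b / a * a + 0
    field_simp
    ring

theorem J_Ls {i : Fin 3} {a b z : F} (ha : a ≠ 0) (hb : b ≠ 0)
    (hz : z ^ 2 + z = w i * (a * b)) (l : Fin 5) : J w (Ls (w i) a b z l) = Jc l := by
  have hwi := G.ne i
  obtain ⟨hz0, hz1⟩ := z_ne G (mul_ne_zero hwi (mul_ne_zero ha hb)) hz
  fin_cases l
  · change J w (.sl _ _) = JC
    have h1 : z / (a * w i) ≠ 0 := div_ne_zero hz0 (mul_ne_zero ha hwi)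
    rw [J, if_neg h1, if_neg (mul_ne_zero hwi (pow_ne_zero 2 h1)), if_pos ⟨i, rfl⟩]
  · change J w (.sl _ _) = JC
    have h1 : (z + 1) / (a * w i) ≠ 0 := div_ne_zero hz1 (mul_ne_zero ha hwi)
    rw [J, if_neg h1, if_neg (mul_ne_zero hwi (pow_ne_zero 2 h1)), if_pos ⟨i, rfl⟩]
  · change J w (.ver a) = JV
    rw [J, if_neg ha]
  · change J w (.sl 0 b) = JH
    rw [J, if_neg hb, if_pos rfl]
  · change J w (.sl (b / a) 0) = JR
    rw [J, if_pos rfl, if_neg (div_ne_zero hb ha)]

theorem Ls_inj {i : Fin 3} {a b z : F} (ha : a ≠ 0) (hb : b ≠ 0)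
    (hz : z ^ 2 + z = w i * (a * b)) : Function.Injective (Ls (w i) a b z) := by
  have hwi := G.ne i
  obtain ⟨hz0, hz1⟩ := z_ne G (mul_ne_zero hwi (mul_ne_zero ha hb)) hz
  have hm := mul_ne_zero ha hwi
  have y0 : z / (a * w i) ≠ 0 := div_ne_zero hz0 hm
  have y1 : (z + 1) / (a * w i) ≠ 0 := div_ne_zero hz1 hm
  have x0 : w i * (z / (a * w i)) ^ 2 ≠ 0 := mul_ne_zero hwi (pow_ne_zero 2 y0)
  have x1 : w i * ((z + 1) / (a * w i)) ^ 2 ≠ 0 := mul_ne_zero hwi (pow_ne_zero 2 y1)
  have y01 : z / (a * w i) ≠ (z + 1) / (a * w i) := by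
    intro h0
    rw [div_left_inj' hm] at h0
    exact one_ne_zero (left_eq_add.1 h0)
  intro l l' hll
  fin_cases l <;> fin_cases l' <;>
    simp only [Ls, Ln.sl.injEq, reduceCtorEq, Fin.zero_eta, Fin.mk_one,
      Fin.reduceFinMk] at hll ⊢
  · exact absurd hll.2 y01
  · exact absurd hll.1 x0
  · exact absurd hll.2 y0
  · exact absurd hll.2.symm y01
  · exact absurd hll.1 x1
  · exact absurd hll.2 y1
  · exact absurd hll.1.symm x0
  · exact absurd hll.1.symm x1
  · exact absurd hll.2 hb
  · exact absurd hll.2.symm y0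
  · exact absurd hll.2.symm y1
  · exact absurd hll.2.symm hb

/-- every special line through the point is one of the five -/
theorem exists_Ls {i : Fin 3} {a b z : F} (ha : a ≠ 0) (hb : b ≠ 0)
    (hz : z ^ 2 + z = w i * (a * b)) (hi : ∀ k, k ≠ i → T h (w k * (a * b)) = 1)
    {m : Ln F} (hm : Inc (.aff a b) m) (hJ : J w m ≠ ∅) : ∃ l, m = Ls (w i) a b z l := by
  have hwi := G.ne i
  cases m with
  | sl x y =>
    have hinc : b = x * a + y := hm
    by_cases hy : y = 0
    · refine ⟨4, ?_⟩
      change Ln.sl x y = Ln.sl (b / a) 0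
      rw [hy, hinc, hy, add_zero, mul_div_cancel_right₀ _ ha]
    · by_cases hx : x = 0
      · refine ⟨3, ?_⟩
        change Ln.sl x y = Ln.sl 0 b
        rw [hinc, hx, zero_mul, zero_add]
      · by_cases hk : ∃ k, x = w k * y ^ 2
        · obtain ⟨k, hk⟩ := hk
          have h1 : (w k * a * y) ^ 2 + w k * a * y = w k * (a * b) := by
            rw [hinc, hk]
            ring
          have h2 : T h (w k * (a * b)) = 0 := by
            rw [← h1, T_add G.two, T_sq (by have := G.h9; omega) G.card G.two, add_self_eq G]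
          have hki : k = i := by
            by_contra hne
            rw [hi k hne] at h2
            exact one_ne_zero h2
          subst hki
          have h3 : (w k * a * y - z) * (w k * a * y - (z + 1)) = 0 := by
            have h4 : (w k * a * y - z) * (w k * a * y - (z + 1)) =
                ((w k * a * y) ^ 2 + w k * a * y) - (z ^ 2 + z) +
                  ((z + z) * z + (z + z) - (z + z) * (w k * a * y) - (w k * a * y + w k * a * y)) := by
              ring
            rw [h4, h1, hz, add_self_eq G, add_self_eq G]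
            ring
          have h5 : ∀ z' : F, w k * a * y - z' = 0 → y = z' / (a * w k) := by
            intro z' hz'
            have h6 : z' = w k * a * y := (sub_eq_zero.1 hz').symm
            rw [h6]
            field_simp
          rcases mul_eq_zero.1 h3 with h4 | h4
          · refine ⟨0, ?_⟩
            change Ln.sl x y = Ln.sl (w k * (z / (a * w k)) ^ 2) (z / (a * w k))
            rw [← h5 z h4, hk]
          · refine ⟨1, ?_⟩
            change Ln.sl x y = Ln.sl (w k * ((z + 1) / (a * w k)) ^ 2) ((z + 1) / (a * w k))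
            rw [← h5 (z + 1) h4, hk]
        · exact absurd (by rw [J, if_neg hy, if_neg hx, if_neg hk]) hJ
  | ver c =>
    refine ⟨2, ?_⟩
    have hc : a = c := hm
    rw [← hc]
    rfl
  | inf => exact absurd hm id

/-- from an abstract word to a word -/
theorem word_of_aw {i : Fin 3} {a b z : F} (ha : a ≠ 0) (hb : b ≠ 0)
    (hz : z ^ 2 + z = w i * (a * b)) (hi : ∀ k, k ≠ i → T h (w k * (a * b)) = 1)
    {c : Fin 16 → Fin 5} (hc : AW c) : IsWord w a b (fun j => Ls (w i) a b z (c j)) := by
  refine ⟨fun j => inc_Ls G ha hz (c j), fun j => ?_, fun m hm => ?_⟩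
  · rw [J_Ls G ha hb hz]
    exact hc.1 j
  · by_cases hJ : J w m = ∅
    · rw [hJ, card_empty, filter_eq_empty_iff.2, card_empty]
      intro j _ hj
      have h1 : j ∈ J w m := by
        rw [← hj, J_Ls G ha hb hz]
        exact hc.1 j
      rw [hJ] at h1
      exact notMem_empty _ h1
    · obtain ⟨l, rfl⟩ := exists_Ls G ha hb hz hi hm hJ
      rw [J_Ls G ha hb hz, ← hc.2 l]
      congr 2
      ext j
      rw [mem_filter, mem_filter]
      exact and_congr_right fun _ => (Ls_inj G ha hb hz).eq_iff

end Lines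

theorem exists_word {h : ℕ} {w : Fin 3 → F} (G : Good h w) {a b : F} (hab : WP h w a b)
    {m : Ln F} (hm : Inc (.aff a b) m) {X : Finset (Fin 16)} (hX : X ⊆ J w m)
    (hXc : 2 * X.card = (J w m).card) :
    ∃ φ, IsWord w a b φ ∧ univ.filter (fun j => φ j = m) = X := by
  obtain ⟨ha, hb⟩ := wp_ne G hab
  obtain ⟨i, hi0, hi1⟩ := exactly_one G hab
  obtain ⟨z, hz⟩ := exists_of_T_eq_zero (by have := G.h9; omega) G.card G.two _ hi0
  by_cases hJ : J w m = ∅
  · obtain ⟨c, hc, -⟩ := exists_aw 2 {10, 11} (by decide) (by decide)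
    have hW := word_of_aw G ha hb hz hi1 hc
    refine ⟨_, hW, ?_⟩
    have h1 := hW.bal m hm
    have h2 : X = ∅ := by
      rw [hJ] at hX
      exact subset_empty.1 hX
    rw [hJ, card_empty] at h1
    rw [h2]
    exact card_eq_zero.1 (by omega)
  · obtain ⟨l, rfl⟩ := exists_Ls G ha hb hz hi1 hm hJ
    rw [J_Ls G ha hb hz] at hX hXc
    obtain ⟨c, hc, hcX⟩ := exists_aw l X hX hXc
    refine ⟨_, word_of_aw G ha hb hz hi1 hc, ?_⟩
    rw [← hcX]
    ext j
    rw [mem_filter, mem_filter]
    exact and_congr_right fun _ => (Ls_inj G ha hb hz).eq_iff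

/-! ## Gadget lemma -/

theorem gadget (w : Fin 3 → F) (m : Ln F) (A : Finset (Sym2 (Finset (Fin 16))))
    (B : Finset (Fin 16)) (hAB : 2 * (A.card + B.card) ≤ (J w m).card) :
    ∃ X ⊆ J w m, 2 * X.card = (J w m).card ∧ s(X, J w m \ X) ∉ A ∧ Disjoint X B := by
  by_contra hcon
  push Not at hcon
  obtain ⟨c, hc, hc'⟩ : ∃ c, (J w m).card = 2 * c ∧ (c = 0 ∨ c = 2 ∨ c = 5) := by
    have h1 : J w m = ∅ ∨ J w m = JC ∨ J w m = JV ∨ J w m = JH ∨ J w m = JR := by
      cases m with
      | sl x y =>
        rw [J]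
        split_ifs <;> simp
      | ver c =>
        rw [J]
        split_ifs <;> simp
      | inf => left; rfl
    rcases h1 with h1 | h1 | h1 | h1 | h1 <;> rw [h1]
    · exact ⟨0, rfl, by omega⟩
    · exact ⟨5, by decide, by omega⟩
    · exact ⟨2, by decide, by omega⟩
    · exact ⟨2, by decide, by omega⟩
    · exact ⟨2, by decide, by omega⟩
  set S := J w m with hS
  have h2 : ∀ X ∈ powersetCard c (S \ B), s(X, S \ X) ∈ A := by
    intro X hX
    rw [mem_powersetCard] at hX
    by_contra h3
    refine hcon X (hX.1.trans sdiff_subset) (by rw [hX.2, hc]) h3 ?_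
    exact disjoint_of_subset_left hX.1 sdiff_disjoint
  have h3 : (powersetCard c (S \ B)).card ≤
      2 * ((powersetCard c (S \ B)).image (fun X => s(X, S \ X))).card := by
    refine card_le_mul_card_image _ _ fun a ha => ?_
    obtain ⟨X₀, hX₀, rfl⟩ := mem_image.1 ha
    refine (card_le_card (t := {X₀, S \ X₀}) ?_).trans card_le_two
    intro X hX
    rw [mem_filter] at hX
    rw [mem_insert, mem_singleton]
    rcases Sym2.eq_iff.1 hX.2 with h4 | h4
    · exact Or.inl h4.1
    · exact Or.inr h4.1
  have h4 : ((powersetCard c (S \ B)).image (fun X => s(X, S \ X))).card ≤ A.card := by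
    refine card_le_card fun a ha => ?_
    obtain ⟨X₀, hX₀, rfl⟩ := mem_image.1 ha
    exact h2 X₀ hX₀
  rw [card_powersetCard] at h3
  have h5 : 2 * c - B.card ≤ (S \ B).card := by
    rw [← hc]
    exact le_card_sdiff B S
  have h6 := Nat.choose_le_choose c h5
  rw [hc] at hAB
  have h7 : A.card ≤ c - B.card := by omega
  have h8 : Nat.choose (2 * c - B.card) c ≤ 2 * (c - B.card) := by omega
  have h9 : B.card ≤ c := by omega
  rcases hc' with rfl | rfl | rfl
  · revert h8
    generalize B.card = n at h9 ⊢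
    interval_cases n <;> decide
  · revert h8
    generalize B.card = n at h9 ⊢
    interval_cases n <;> decide
  · revert h8
    generalize B.card = n at h9 ⊢
    interval_cases n <;> decide

end Vale.Agent.P045
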