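import Vale.Agent.Lib.P045.Tests

/-!
# P045, module HB: the polynomial method
-/

namespace Vale.Agent.P045

open Finset

variable {F : Type} [Field F]

/-- the equation of a line -/
def hitEqn : Ln F → F → F → F
  | .sl x y, a, b => b - x * a - y
  | .ver c, a, _ => a - c
  | .inf, _, _ => 1

/-- functions on the affine plane that are given by polynomials of degree at most `n` -/
def hitSpan (F : Type) [Field F] (n : ℕ) : Submodule F (F × F → F) :=
  Submodule.span F {f | ∃ i j : ℕ, i + j ≤ n ∧ f = fun p => p.1 ^ i * p.2 ^ j}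

theorem hit_mon_mem {n i j : ℕ} (hij : i + j ≤ n) :
    (fun p : F × F => p.1 ^ i * p.2 ^ j) ∈ hitSpan F n :=
  Submodule.subset_span ⟨i, j, hij, rfl⟩

theorem hit_mul_mem (m : Ln F) {n : ℕ} {f : F × F → F} (hf : f ∈ hitSpan F n) :
    (fun p => hitEqn m p.1 p.2 * f p) ∈ hitSpan F (n + 1) := by
  unfold hitSpan at hf
  induction hf using Submodule.span_induction with
  | mem f hf =>
    obtain ⟨i, j, hij, rfl⟩ := hf
    have h1 : (fun p : F × F => p.1 ^ (i + 1) * p.2 ^ j) ∈ hitSpan F (n + 1) :=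
      hit_mon_mem (by omega)
    have h2 : (fun p : F × F => p.1 ^ i * p.2 ^ (j + 1)) ∈ hitSpan F (n + 1) :=
      hit_mon_mem (by omega)
    have h3 : (fun p : F × F => p.1 ^ i * p.2 ^ j) ∈ hitSpan F (n + 1) :=
      hit_mon_mem (by omega)
    cases m with
    | sl x y =>
      have h4 := Submodule.sub_mem _ (Submodule.sub_mem _ h2 (Submodule.smul_mem _ x h1))
        (Submodule.smul_mem _ y h3)
      convert h4 using 1
      funext p
      simp only [hitEqn, Pi.sub_apply, Pi.smul_apply, smul_eq_mul]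
      ring
    | ver c =>
      have h4 := Submodule.sub_mem _ h1 (Submodule.smul_mem _ c h3)
      convert h4 using 1
      funext p
      simp only [hitEqn, Pi.sub_apply, Pi.smul_apply, smul_eq_mul]
      ring
    | inf =>
      convert h3 using 1
      funext p
      simp only [hitEqn, one_mul]
  | zero =>
    convert Submodule.zero_mem _ using 1
    funext p
    simp
  | add f g _ _ hf hg =>
    convert Submodule.add_mem _ hf hg using 1
    funext p
    simp only [Pi.add_apply]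
    ring
  | smul c f _ hf =>
    convert Submodule.smul_mem _ c hf using 1
    funext p
    simp only [Pi.smul_apply, smul_eq_mul]
    ring

theorem hit_prod_mem (L : Finset (Ln F)) :
    (fun p : F × F => ∏ m ∈ L, hitEqn m p.1 p.2) ∈ hitSpan F L.card := by
  classical
  induction L using Finset.induction_on with
  | empty =>
    have := hit_mon_mem (F := F) (n := 0) (i := 0) (j := 0) (by omega)
    simpa using this
  | insert m L hm ih =>
    have h1 := hit_mul_mem m ih
    rw [Finset.card_insert_of_notMem hm]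
    convert h1 using 1
    funext p
    rw [Finset.prod_insert hm]

theorem hit_span_mono {n k : ℕ} (h : n ≤ k) : hitSpan F n ≤ hitSpan F k := by
  unfold hitSpan
  apply Submodule.span_mono
  rintro f ⟨i, j, hij, rfl⟩
  exact ⟨i, j, by omega, rfl⟩

theorem hit_inc_of_eqn {m : Ln F} {a b : F} (h : hitEqn m a b = 0) : Inc (.aff a b) m := by
  cases m with
  | sl x y =>
    simp only [hitEqn] at h
    simp only [Inc]
    linear_combination h
  | ver c =>
    simp only [hitEqn] at h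
    simp only [Inc]
    linear_combination h
  | inf => simp [hitEqn] at h

theorem hit_eqn_of_inc {m : Ln F} {a b : F} (h : Inc (.aff a b) m) : hitEqn m a b = 0 := by
  cases m with
  | sl x y =>
    simp only [Inc] at h
    simp only [hitEqn]
    linear_combination h
  | ver c =>
    simp only [Inc] at h
    simp only [hitEqn]
    linear_combination h
  | inf => simp [Inc] at h

variable [Fintype F] [DecidableEq F]

theorem hit_sum_units (i k : ℕ) (h : ¬ (i ≡ k [MOD Fintype.card F - 1])) :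
    ∑ u : Fˣ, (u : F) ^ i * ((u⁻¹ : Fˣ) : F) ^ k = 0 := by
  have hq : 2 ≤ Fintype.card F := Fintype.one_lt_card
  have hinv : ∀ u : Fˣ, ((u⁻¹ : Fˣ) : F) = (u : F) ^ (Fintype.card F - 2) := by
    intro u
    have h1 : (u : F) ^ (Fintype.card F - 1) = 1 :=
      FiniteField.pow_card_sub_one_eq_one (u : F) u.ne_zero
    have h2 : Fintype.card F - 1 = (Fintype.card F - 2) + 1 := by omega
    rw [h2, pow_succ] at h1
    rw [Units.val_inv_eq_inv_val]
    exact (eq_inv_of_mul_eq_one_left h1).symm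
  have h3 : ∀ u : Fˣ, (u : F) ^ i * ((u⁻¹ : Fˣ) : F) ^ k
      = (u : F) ^ (i + (Fintype.card F - 2) * k) := by
    intro u
    rw [hinv, ← pow_mul, ← pow_add]
  have h4 := FiniteField.sum_pow_units F (i + (Fintype.card F - 2) * k)
  have h5 : ∑ u : Fˣ, (u : F) ^ i * ((u⁻¹ : Fˣ) : F) ^ k
      = ∑ u : Fˣ, (u : F) ^ (i + (Fintype.card F - 2) * k) :=
    Finset.sum_congr rfl fun u _ => h3 u
  rw [h5, h4, if_neg]
  intro hdvd
  apply h
  obtain ⟨n, hn⟩ : ∃ n, Fintype.card F = n + 2 := ⟨Fintype.card F - 2, by omega⟩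
  rw [hn] at hdvd ⊢
  have e1 : n + 2 - 1 = n + 1 := by omega
  have e2 : n + 2 - 2 = n := by omega
  rw [e1, e2] at hdvd
  rw [e1]
  have h6 : i + n * k + k ≡ 0 + k [MOD n + 1] :=
    Nat.ModEq.add_right k ((Nat.modEq_zero_iff_dvd).mpr hdvd)
  have h7 : i + n * k + k = i + (n + 1) * k := by ring
  rw [h7, zero_add] at h6
  have h8 : i + (n + 1) * k ≡ i + 0 [MOD n + 1] :=
    Nat.ModEq.add_left i ((Nat.modEq_zero_iff_dvd).mpr (Dvd.intro k rfl))
  rw [add_zero] at h8
  exact h8.symm.trans h6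

theorem hitting {h : ℕ} {w : Fin 3 → F} (G : Good h w) (L : Finset (Ln F))
    (hL : L.card ≤ 2 ^ h + 16)
    (hcov : ∀ a b : F, WP h w a b → ∃ m ∈ L, Inc (.aff a b) m) :
    ∀ a b : F, a ≠ 0 → b ≠ 0 → ∃ m ∈ L, Inc (.aff a b) m := by
  intro a0 b0 ha0 hb0
  by_contra hnc
  have hcard := G.card
  have hW : ∀ k, T h (w k * (a0 * b0)) = 0 := by
    by_contra hcon
    apply hnc
    apply hcov
    by_contra h2
    apply hcon
    intro k
    by_contra h3
    exact h2 ⟨k, h3⟩
  have hc0 : a0 * b0 ≠ 0 := mul_ne_zero ha0 hb0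
  have hex : ∀ d : ℕ, ∃ g : F → F, d < 2 ^ h - 1 → (g (a0 * b0) = 1 ∧
      (∀ c, c ≠ 0 → c ≠ a0 * b0 → (∀ k, T h (w k * c) = 0) → g c = 0) ∧
      ∀ i j : ℕ, i + j ≤ 2 ^ h + 16 → i ≡ j + d [MOD 2 ^ h - 1] →
        ∑ v : Fˣ, (v : F) ^ j * g v = 0) := by
    intro d
    by_cases hd : d < 2 ^ h - 1
    · obtain ⟨g, hg⟩ := exists_test G (a0 * b0) hc0 hW d hd
      exact ⟨g, fun _ => hg⟩
    · exact ⟨0, fun h => absurd h hd⟩
  choose g hg using hex
  -- the test function
  set Γ : Fˣ → Fˣ → F := fun u v =>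
    ∑ d ∈ range (2 ^ h - 1), (a0 * ((u⁻¹ : Fˣ) : F)) ^ d * g d v with hΓ
  -- it is orthogonal to all polynomials of degree at most `2 ^ h + 16`
  have hmon : ∀ i j : ℕ, i + j ≤ 2 ^ h + 16 →
      ∑ u : Fˣ, ∑ v : Fˣ, ((u : F) ^ i * ((v : F) * ((u⁻¹ : Fˣ) : F)) ^ j) * Γ u v = 0 := by
    intro i j hij
    have h1 : ∀ u v : Fˣ, ((u : F) ^ i * ((v : F) * ((u⁻¹ : Fˣ) : F)) ^ j) * Γ u v
        = ∑ d ∈ range (2 ^ h - 1), a0 ^ d * ((u : F) ^ i * ((u⁻¹ : Fˣ) : F) ^ (j + d)) *
          ((v : F) ^ j * g d v) := by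
      intro u v
      simp only [hΓ]
      rw [Finset.mul_sum]
      apply Finset.sum_congr rfl
      intro d _
      rw [mul_pow, mul_pow, pow_add]
      ring
    have h2 : ∑ u : Fˣ, ∑ v : Fˣ, ((u : F) ^ i * ((v : F) * ((u⁻¹ : Fˣ) : F)) ^ j) * Γ u v
        = ∑ d ∈ range (2 ^ h - 1), a0 ^ d * (∑ u : Fˣ, (u : F) ^ i * ((u⁻¹ : Fˣ) : F) ^ (j + d)) *
          (∑ v : Fˣ, (v : F) ^ j * g d v) := by
      simp only [h1]
      rw [Finset.sum_congr rfl (fun u _ => Finset.sum_comm), Finset.sum_comm]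
      apply Finset.sum_congr rfl
      intro d _
      rw [mul_assoc (a0 ^ d) (∑ u : Fˣ, (u : F) ^ i * ((u⁻¹ : Fˣ) : F) ^ (j + d)),
        Finset.sum_mul_sum, Finset.mul_sum]
      apply Finset.sum_congr rfl
      intro u _
      rw [Finset.mul_sum]
      apply Finset.sum_congr rfl
      intro v _
      ring
    rw [h2]
    apply Finset.sum_eq_zero
    intro d hd
    by_cases hmod : i ≡ j + d [MOD 2 ^ h - 1]
    · rw [(hg d (Finset.mem_range.mp hd)).2.2 i j hij hmod, mul_zero]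
    · rw [hit_sum_units i (j + d) (by rw [hcard]; exact hmod), mul_zero, zero_mul]
  have hspan : ∀ f ∈ hitSpan F (2 ^ h + 16),
      ∑ u : Fˣ, ∑ v : Fˣ, f ((u : F), (v : F) * ((u⁻¹ : Fˣ) : F)) * Γ u v = 0 := by
    intro f hf
    unfold hitSpan at hf
    induction hf using Submodule.span_induction with
    | mem f hf =>
      obtain ⟨i, j, hij, rfl⟩ := hf
      exact hmon i j hij
    | zero => simp
    | add f g _ _ hf hg =>
      simp only [Pi.add_apply, add_mul, Finset.sum_add_distrib]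
      rw [hf, hg, add_zero]
    | smul c f _ hf =>
      simp only [Pi.smul_apply, smul_eq_mul, mul_assoc]
      simp only [← Finset.mul_sum]
      rw [hf, mul_zero]
  have hR := hspan _ (hit_span_mono hL (hit_prod_mem L))
  simp only at hR
  -- evaluate the sum
  set u0 : Fˣ := Units.mk0 a0 ha0 with hu0
  set v0 : Fˣ := Units.mk0 (a0 * b0) hc0 with hv0
  have hone : ∀ u v : Fˣ, v ≠ v0 →
      (∏ m ∈ L, hitEqn m (u : F) ((v : F) * ((u⁻¹ : Fˣ) : F))) * Γ u v = 0 := by
    intro u v hv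
    by_cases hvW : ∀ k, T h (w k * (v : F)) = 0
    · have h1 : Γ u v = 0 := by
        simp only [hΓ]
        apply Finset.sum_eq_zero
        intro d hd
        have h2 : (v : F) ≠ a0 * b0 := by
          intro h3
          apply hv
          ext
          rw [h3]
          rfl
        rw [(hg d (Finset.mem_range.mp hd)).2.1 (v : F) v.ne_zero h2 hvW, mul_zero]
      rw [h1, mul_zero]
    · have h1 : WP h w (u : F) ((v : F) * ((u⁻¹ : Fˣ) : F)) := by
        unfold WP
        by_contra h2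
        apply hvW
        intro k
        by_contra h3
        apply h2
        refine ⟨k, ?_⟩
        have h4 : (u : F) * ((v : F) * ((u⁻¹ : Fˣ) : F)) = (v : F) := by
          have h5 : (u : F) * ((u⁻¹ : Fˣ) : F) = 1 := Units.mul_inv u
          calc (u : F) * ((v : F) * ((u⁻¹ : Fˣ) : F))
              = (v : F) * ((u : F) * ((u⁻¹ : Fˣ) : F)) := by ring
            _ = (v : F) := by rw [h5, mul_one]
        rw [h4]
        exact h3
      obtain ⟨m, hm, hinc⟩ := hcov _ _ h1
      rw [Finset.prod_eq_zero hm (hit_eqn_of_inc hinc), zero_mul]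
  have htwo : ∀ u : Fˣ, u ≠ u0 → Γ u v0 = 0 := by
    intro u hu
    simp only [hΓ]
    have h1 : ∀ d ∈ range (2 ^ h - 1), (a0 * ((u⁻¹ : Fˣ) : F)) ^ d * g d v0
        = (a0 * ((u⁻¹ : Fˣ) : F)) ^ d := by
      intro d hd
      have := (hg d (Finset.mem_range.mp hd)).1
      have h2 : ((v0 : Fˣ) : F) = a0 * b0 := rfl
      rw [h2, this, mul_one]
    rw [Finset.sum_congr rfl h1]
    have hx0 : a0 * ((u⁻¹ : Fˣ) : F) ≠ 0 := mul_ne_zero ha0 (Units.ne_zero _)
    have hx1 : a0 * ((u⁻¹ : Fˣ) : F) ≠ 1 := by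
      intro h2
      apply hu
      ext
      have h3 : ((u0 : Fˣ) : F) = a0 := rfl
      rw [h3]
      have h5 : ((u⁻¹ : Fˣ) : F) * (u : F) = 1 := Units.inv_mul u
      calc (u : F) = (a0 * ((u⁻¹ : Fˣ) : F)) * (u : F) := by rw [h2, one_mul]
        _ = a0 := by rw [mul_assoc, h5, mul_one]
    have h2 := geom_sum_mul (a0 * ((u⁻¹ : Fˣ) : F)) (2 ^ h - 1)
    have h3 : (a0 * ((u⁻¹ : Fˣ) : F)) ^ (2 ^ h - 1) = 1 := by
      rw [← hcard]
      exact FiniteField.pow_card_sub_one_eq_one _ hx0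
    rw [h3, sub_self] at h2
    exact (mul_eq_zero.mp h2).resolve_right (sub_ne_zero.mpr hx1)
  have hthree : Γ u0 v0 = -1 := by
    simp only [hΓ]
    have h1 : ∀ d ∈ range (2 ^ h - 1), (a0 * ((u0⁻¹ : Fˣ) : F)) ^ d * g d v0 = 1 := by
      intro d hd
      have h3 := (hg d (Finset.mem_range.mp hd)).1
      have h2 : ((v0 : Fˣ) : F) = a0 * b0 := rfl
      have h4 : a0 * ((u0⁻¹ : Fˣ) : F) = 1 := by
        have : ((u0 : Fˣ) : F) * ((u0⁻¹ : Fˣ) : F) = 1 := Units.mul_inv u0
        exact this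
      rw [h2, h3, mul_one, h4, one_pow]
    rw [Finset.sum_congr rfl h1, Finset.sum_const, Finset.card_range, nsmul_eq_mul, mul_one]
    have h2 : (1 : ℕ) ≤ 2 ^ h := Nat.one_le_two_pow
    rw [Nat.cast_sub h2]
    have h3 : ((2 ^ h : ℕ) : F) = 0 := by
      push_cast
      rw [G.two]
      have := G.h9
      exact zero_pow (by omega)
    rw [h3]
    simp
  have hval : ∑ u : Fˣ, ∑ v : Fˣ,
      (∏ m ∈ L, hitEqn m (u : F) ((v : F) * ((u⁻¹ : Fˣ) : F))) * Γ u v
      = -(∏ m ∈ L, hitEqn m a0 b0) := by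
    rw [Finset.sum_eq_single u0]
    · rw [Finset.sum_eq_single v0]
      · have h1 : ((v0 : Fˣ) : F) * ((u0⁻¹ : Fˣ) : F) = b0 := by
          have h2 : ((u0 : Fˣ) : F) * ((u0⁻¹ : Fˣ) : F) = 1 := Units.mul_inv u0
          have h3 : ((u0 : Fˣ) : F) = a0 := rfl
          have h4 : ((v0 : Fˣ) : F) = a0 * b0 := rfl
          rw [h3] at h2
          rw [h4]
          calc a0 * b0 * ((u0⁻¹ : Fˣ) : F) = b0 * (a0 * ((u0⁻¹ : Fˣ) : F)) := by ring
            _ = b0 := by rw [h2, mul_one]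
        have h5 : ((u0 : Fˣ) : F) = a0 := rfl
        rw [h1, h5, hthree, mul_neg, mul_one]
      · intro v _ hv
        exact hone u0 v hv
      · intro h1
        exact absurd (Finset.mem_univ _) h1
    · intro u _ hu
      apply Finset.sum_eq_zero
      intro v _
      by_cases hv : v = v0
      · rw [hv, htwo u hu, mul_zero]
      · exact hone u v hv
    · intro h1
      exact absurd (Finset.mem_univ _) h1
  rw [hval, neg_eq_zero, Finset.prod_eq_zero_iff] at hR
  obtain ⟨m, hm, hm0⟩ := hR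
  exact hnc ⟨m, hm, hit_inc_of_eqn hm0⟩

end Vale.Agent.P045
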