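import Vale.Agent.Lib.P045.Trace

/-! # P045, module SZ: a special line has many word points -/

namespace Vale.Agent.P045

open Finset

variable {F : Type} [Field F] [Fintype F] [DecidableEq F]

/-- A function which is nonzero on the translate of its zero set by a fixed element is nonzero on
at least half of the field. -/
theorem half_nonzero (f : F → F) (s0 : F) (hf : ∀ x, f x = 0 → f (x + s0) ≠ 0) :
    Fintype.card F ≤ 2 * (univ.filter (fun s : F => f s ≠ 0)).card := by
  have h1 : (univ.filter (fun s : F => f s = 0)).card ≤ (univ.filter (fun s : F => f s ≠ 0)).card := by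
    refine Finset.card_le_card_of_injOn (fun s => s + s0) ?_ ?_
    · intro s hs
      simp only [coe_filter, mem_univ, true_and, Set.mem_ofPred_eq] at hs ⊢
      exact hf s hs
    · intro s _ t _ hst
      exact add_right_cancel hst
  have h2 := Finset.card_filter_add_card_filter_not (s := (univ : Finset F)) (fun s : F => f s = 0)
  rw [Finset.card_univ] at h2
  simp only [ne_eq] at h1 h2 ⊢
  have h3 := h2
  linarith [h1, h3]

omit [DecidableEq F] in
/-- In characteristic two every element of a finite field is a square. -/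
theorem exists_sqrt (h2 : (2 : F) = 0) (c : F) : ∃ s : F, s ^ 2 = c := by
  have hinj : Function.Injective (fun s : F => s ^ 2) := by
    intro s t hst
    have h1 : s ^ 2 = t ^ 2 := hst
    have h3 : (s - t) ^ 2 = 0 := by linear_combination h1 - t * (s - t) * h2
    have h4 : s - t = 0 := by simpa using h3
    exact sub_eq_zero.mp h4
  exact (Finite.surjective_of_injective hinj) c

theorem size_aux {h : ℕ} {w : Fin 3 → F} (G : Good h w) (m : Ln F) (g : F → F × F)
    (hg : Function.Injective g) (hinc : ∀ s, Inc (.aff (g s).1 (g s).2) m) (k : Fin 3) (s0 : F)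
    (hs : ∀ x, T h (w k * ((g x).1 * (g x).2)) = 0 →
      T h (w k * ((g (x + s0)).1 * (g (x + s0)).2)) ≠ 0) :
    19 ≤ (univ.filter (fun p : F × F => WP h w p.1 p.2 ∧ Inc (.aff p.1 p.2) m)).card := by
  have h1 := half_nonzero (fun s => T h (w k * ((g s).1 * (g s).2))) s0 hs
  have h3 : (univ.filter (fun s : F => T h (w k * ((g s).1 * (g s).2)) ≠ 0)).card ≤
      (univ.filter (fun p : F × F => WP h w p.1 p.2 ∧ Inc (.aff p.1 p.2) m)).card := by
    refine Finset.card_le_card_of_injOn g ?_ (hg.injOn)
    intro s hs'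
    simp only [coe_filter, mem_univ, true_and, Set.mem_ofPred_eq] at hs' ⊢
    exact ⟨⟨k, hs'⟩, hinc s⟩
  have h4 : (2 : ℕ) ^ 9 ≤ 2 ^ h := Nat.pow_le_pow_right (by norm_num) G.h9
  have h5 := G.card
  omega

theorem size_sl {h : ℕ} {w : Fin 3 → F} (G : Good h w) (x y : F) (k : Fin 3)
    (hk : x ≠ w k * y ^ 2) :
    19 ≤ (univ.filter (fun p : F × F => WP h w p.1 p.2 ∧ Inc (.aff p.1 p.2) (.sl x y))).card := by
  obtain ⟨t1, ht1⟩ := exists_T_eq_one (le_trans (by norm_num) G.h9) G.card G.two
  have hd : w k * x + (w k * y) ^ 2 ≠ 0 := by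
    intro h0
    apply hk
    have hwk := G.ne k
    have h1 : w k * (x - w k * y ^ 2) = 0 := by linear_combination h0 - (w k * y) ^ 2 * G.two
    rcases mul_eq_zero.mp h1 with h2 | h2
    · exact absurd h2 hwk
    · exact sub_eq_zero.mp h2
  obtain ⟨s0, hs0⟩ := exists_sqrt G.two (t1 / (w k * x + (w k * y) ^ 2))
  have key : ∀ s : F, T h (w k * (s * (x * s + y))) = T h ((w k * x + (w k * y) ^ 2) * s ^ 2) := by
    intro s
    have e1 : w k * (s * (x * s + y)) = w k * x * s ^ 2 + w k * y * s := by ring
    have e2 : (w k * x + (w k * y) ^ 2) * s ^ 2 = w k * x * s ^ 2 + (w k * y * s) ^ 2 := by ring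
    rw [e1, e2, T_add G.two, T_add G.two, T_sq (le_trans (by norm_num) G.h9) G.card G.two]
  refine size_aux G _ (fun s => (s, x * s + y)) ?_ ?_ k s0 ?_
  · intro s t hst
    exact (Prod.ext_iff.mp hst).1
  · intro s
    simp only [Inc]
  · intro s hs
    simp only at hs ⊢
    rw [key] at hs
    rw [key]
    have e3 : (w k * x + (w k * y) ^ 2) * (s + s0) ^ 2 =
        (w k * x + (w k * y) ^ 2) * s ^ 2 + t1 := by
      have e4 : (w k * x + (w k * y) ^ 2) * s0 ^ 2 = t1 := by
        rw [hs0]; exact mul_div_cancel₀ _ hd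
      linear_combination e4 + (w k * x + (w k * y) ^ 2) * s * s0 * G.two
    rw [e3, T_add G.two, hs, ht1, zero_add]
    exact one_ne_zero

theorem size {h : ℕ} {w : Fin 3 → F} (G : Good h w) (m : Ln F) (hJ : J w m ≠ ∅) :
    19 ≤ (univ.filter (fun p : F × F => WP h w p.1 p.2 ∧ Inc (.aff p.1 p.2) m)).card := by
  cases m with
  | inf => exact absurd rfl hJ
  | ver c =>
    have hc : c ≠ 0 := by
      intro h0
      apply hJ
      simp [J, h0]
    obtain ⟨t1, ht1⟩ := exists_T_eq_one (le_trans (by norm_num) G.h9) G.card G.two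
    have hw := G.ne 0
    refine size_aux G _ (fun s => (c, s)) ?_ ?_ 0 (t1 / (w 0 * c)) ?_
    · intro s t hst
      exact (Prod.ext_iff.mp hst).2
    · intro s
      simp only [Inc]
    · intro s hs
      simp only at hs ⊢
      have e1 : w 0 * (c * (s + t1 / (w 0 * c))) = w 0 * (c * s) + t1 := by
        field_simp
      rw [e1, T_add G.two, hs, ht1, zero_add]
      exact one_ne_zero
  | sl x y =>
    by_cases hy : y = 0
    · have hx : x ≠ 0 := by
        intro h0
        apply hJ
        simp [J, h0, hy]
      exact size_sl G x y 0 (by rw [hy]; simpa using hx)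
    · by_cases hx : x = 0
      · refine size_sl G x y 0 ?_
        rw [hx]
        intro h0
        have := mul_ne_zero (G.ne 0) (pow_ne_zero 2 hy)
        exact this h0.symm
      · by_cases h01 : x = w 0 * y ^ 2
        · refine size_sl G x y 1 ?_
          intro h1
          have h2 : w 0 * y ^ 2 = w 1 * y ^ 2 := h01.symm.trans h1
          have h3 := mul_right_cancel₀ (pow_ne_zero 2 hy) h2
          have h4 := G.inj h3
          exact absurd h4 (by decide)
        · exact size_sl G x y 0 h01

end Vale.Agent.P045
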