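import Vale.Agent.Lib.P045.Trace
import Vale.Agent.Lib.P045.Bruen
import Vale.Agent.Lib.P045.Hitting
import Vale.Agent.Lib.P045.Size
import Vale.Agent.Lib.P045.Cost
import Vale.Agent.Lib.P045.Exist

/-!
# P045: the hypergraph and the assembly of the cover bound
-/

namespace Vale.Agent.P045

open Finset

variable {F : Type} [Field F] [Fintype F] [DecidableEq F]

/-- vertices of the hypergraph -/
abbrev Lab (F : Type) : Type := (Ln F × Sym2 (Finset (Fin 16))) ⊕ (Ln F × Fin 16)

def lineOf : Lab F → Ln F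
  | .inl (m, _) => m
  | .inr (m, _) => m

def dirOf : Ln F → Option F
  | .sl x _ => some x
  | .ver _ => none
  | .inf => none

def colOf : Lab F → Option F ⊕ Fin 16
  | .inl (m, _) => .inl (dirOf m)
  | .inr (_, j) => .inr j

/-- the line through `(a,b)` with a given direction -/
def thr (a b : F) : Option F → Ln F
  | some x => .sl x (b - x * a)
  | none => .ver a

theorem inc_thr (a b : F) (d : Option F) : Inc (.aff a b) (thr a b d) := by
  cases d <;> simp [thr, Inc]

theorem dirOf_thr (a b : F) (d : Option F) : dirOf (thr a b d) = d := by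
  cases d <;> rfl

theorem exists_dir {a b : F} {m : Ln F} (h : Inc (.aff a b) m) : thr a b (dirOf m) = m := by
  cases m with
  | sl x y =>
    simp only [Inc] at h
    simp [thr, dirOf, h]
  | ver c =>
    simp only [Inc] at h
    simp [thr, dirOf, h]
  | inf => simp [Inc] at h

/-- colours received by the line `m` -/
def Xs (φ : Fin 16 → Ln F) (m : Ln F) : Finset (Fin 16) := univ.filter (fun j => φ j = m)

/-- type of the line `m` in a word -/
def ty (w : Fin 3 → F) (φ : Fin 16 → Ln F) (m : Ln F) : Sym2 (Finset (Fin 16)) :=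
  s(Xs φ m, J w m \ Xs φ m)

/-- the edge of a word -/
def edge (w : Fin 3 → F) (a b : F) (φ : Fin 16 → Ln F) : Finset (Lab F) :=
  (univ.image (fun d : Option F => (Sum.inl (thr a b d, ty w φ (thr a b d)) : Lab F))) ∪
    (univ.image (fun j : Fin 16 => (Sum.inr (φ j, j) : Lab F)))

theorem mem_edge_inl {w : Fin 3 → F} {a b : F} {φ : Fin 16 → Ln F} {m : Ln F}
    {t : Sym2 (Finset (Fin 16))} :
    (Sum.inl (m, t) : Lab F) ∈ edge w a b φ ↔ Inc (.aff a b) m ∧ t = ty w φ m := by
  unfold edge
  simp only [Finset.mem_union, Finset.mem_image, Finset.mem_univ, true_and, Sum.inl.injEq,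
    Prod.mk.injEq, reduceCtorEq, exists_false, or_false]
  constructor
  · rintro ⟨d, rfl, rfl⟩
    exact ⟨inc_thr a b d, rfl⟩
  · rintro ⟨h, rfl⟩
    refine ⟨dirOf m, exists_dir h, ?_⟩
    rw [exists_dir h]

theorem mem_edge_inr {w : Fin 3 → F} {a b : F} {φ : Fin 16 → Ln F} {m : Ln F} {j : Fin 16} :
    (Sum.inr (m, j) : Lab F) ∈ edge w a b φ ↔ φ j = m := by
  unfold edge
  simp only [Finset.mem_union, Finset.mem_image, Finset.mem_univ, true_and, Sum.inr.injEq,
    Prod.mk.injEq, reduceCtorEq, exists_false, false_or]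
  constructor
  · rintro ⟨k, h, rfl⟩
    exact h
  · rintro h
    exact ⟨j, h, rfl⟩

theorem edge_transversal (w : Fin 3 → F) (a b : F) (φ : Fin 16 → Ln F) (i : Option F ⊕ Fin 16) :
    ∃! v, v ∈ edge w a b φ ∧ colOf v = i := by
  rcases i with d | j
  · refine ⟨.inl (thr a b d, ty w φ (thr a b d)), ⟨mem_edge_inl.2 ⟨inc_thr a b d, rfl⟩, ?_⟩, ?_⟩
    · simp [colOf, dirOf_thr]
    · rintro (⟨m, t⟩ | ⟨m, j⟩) ⟨h1, h2⟩
      · have h3 := mem_edge_inl.1 h1
        simp only [colOf, Sum.inl.injEq] at h2
        have h4 := exists_dir h3.1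
        rw [h2] at h4
        rw [h4, h3.2]
      · simp [colOf] at h2
  · refine ⟨.inr (φ j, j), ⟨mem_edge_inr.2 rfl, ?_⟩, ?_⟩
    · simp [colOf]
    · rintro (⟨m, t⟩ | ⟨m, k⟩) ⟨h1, h2⟩
      · simp [colOf] at h2
      · have h3 := mem_edge_inr.1 h1
        simp only [colOf, Sum.inr.injEq] at h2
        subst h2
        rw [h3]

/-- two affine points have a common line -/
theorem exists_common (a b a' b' : F) : ∃ m : Ln F, Inc (.aff a b) m ∧ Inc (.aff a' b') m := by
  by_cases h : a = a'
  · exact ⟨.ver a, rfl, h.symm⟩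
  · have h' : a' - a ≠ 0 := fun h1 => h (sub_eq_zero.1 h1).symm
    refine ⟨.sl ((b' - b) / (a' - a)) (b - (b' - b) / (a' - a) * a), ?_, ?_⟩
    · simp [Inc]
    · simp only [Inc]
      field_simp
      ring

/-- two lines meet in at most one point -/
theorem eq_or_eq' {p z : Pt F} {m m' : Ln F} (h1 : Inc p m) (h2 : Inc p m') (h3 : Inc z m)
    (h4 : Inc z m') : p = z ∨ m = m' := by
  cases m with
  | inf =>
    cases m' with
    | inf => exact Or.inr rfl
    | sl x' y' =>
      cases p <;> cases z <;> simp_all [Inc]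
    | ver c' =>
      cases p <;> cases z <;> simp_all [Inc]
  | ver c =>
    cases m' with
    | inf => cases p <;> cases z <;> simp_all [Inc]
    | sl x' y' => cases p <;> cases z <;> simp_all [Inc]
    | ver c' => cases p <;> cases z <;> simp_all [Inc]
  | sl x y =>
    cases m' with
    | inf => cases p <;> cases z <;> simp_all [Inc]
    | ver c' => cases p <;> cases z <;> simp_all [Inc]
    | sl x' y' =>
      cases p with
      | vinf => simp [Inc] at h1
      | dir d =>
        cases z with
        | vinf => simp [Inc] at h3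
        | dir d' => simp_all [Inc]
        | aff a b =>
          simp only [Inc] at h1 h2 h3 h4
          right
          subst h1
          rw [h2] at h3
          have : y = y' := by linear_combination h4 - h3
          rw [this, h2]
      | aff a b =>
        cases z with
        | vinf => simp [Inc] at h3
        | dir d' =>
          simp only [Inc] at h1 h2 h3 h4
          right
          subst h3
          rw [h4] at h1
          have : y = y' := by linear_combination h2 - h1
          rw [this, h4]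
        | aff a' b' =>
          simp only [Inc] at h1 h2 h3 h4
          have h5 : (x - x') * (a - a') = 0 := by linear_combination h3 - h1 + h2 - h4
          rcases mul_eq_zero.1 h5 with h6 | h6
          · right
            have hx : x = x' := sub_eq_zero.1 h6
            rw [hx] at h1
            have : y = y' := by linear_combination h2 - h1
            rw [this, hx]
          · left
            have ha : a = a' := sub_eq_zero.1 h6
            rw [ha] at h1
            rw [ha, h1, h3]

theorem Xs_subset {w : Fin 3 → F} {a b : F} {φ : Fin 16 → Ln F} (hφ : IsWord w a b φ) (m : Ln F) :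
    Xs φ m ⊆ J w m := by
  intro j hj
  have : φ j = m := (Finset.mem_filter.1 hj).2
  rw [← this]; exact hφ.mem j

theorem edge_inter {w : Fin 3 → F} {a b a' b' : F} {φ φ' : Fin 16 → Ln F}
    (hφ : IsWord w a b φ) (hφ' : IsWord w a' b' φ') :
    ∃ v, v ∈ edge w a b φ ∧ v ∈ edge w a' b' φ' := by
  obtain ⟨m, h1, h2⟩ := exists_common a b a' b'
  by_cases ht : ty w φ m = ty w φ' m
  · exact ⟨.inl (m, ty w φ m), mem_edge_inl.2 ⟨h1, rfl⟩, mem_edge_inl.2 ⟨h2, ht⟩⟩
  · have c1 : 2 * (Xs φ m).card = (J w m).card := hφ.bal m h1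
    have c2 : 2 * (Xs φ' m).card = (J w m).card := hφ'.bal m h2
    have s1 := Xs_subset hφ m
    have s2 := Xs_subset hφ' m
    have hnd : ¬ Disjoint (Xs φ m) (Xs φ' m) := by
      intro hd
      apply ht
      have e2 : Xs φ' m = J w m \ Xs φ m := by
        apply Finset.eq_of_subset_of_card_le
        · intro j hj
          rw [Finset.mem_sdiff]
          exact ⟨s2 hj, fun h => Finset.disjoint_left.1 hd h hj⟩
        · rw [Finset.card_sdiff_of_subset s1]; omega
      have e1 : Xs φ m = J w m \ Xs φ' m := by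
        rw [e2, Finset.sdiff_sdiff_eq_self s1]
      unfold ty
      rw [← e2, ← e1, Sym2.eq_swap]
    rw [Finset.not_disjoint_iff] at hnd
    obtain ⟨j, hj1, hj2⟩ := hnd
    refine ⟨.inr (m, j), mem_edge_inr.2 (Finset.mem_filter.1 hj1).2,
      mem_edge_inr.2 (Finset.mem_filter.1 hj2).2⟩

/-- `C` meets all edges. -/
def Covers (h : ℕ) (w : Fin 3 → F) (C : Finset (Lab F)) : Prop :=
  ∀ a b φ, WP h w a b → IsWord w a b φ → ∃ v ∈ C, v ∈ edge w a b φ

theorem lineOf_mem_edge {w : Fin 3 → F} {a b : F} {φ : Fin 16 → Ln F} (hφ : IsWord w a b φ)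
    {v : Lab F} (hv : v ∈ edge w a b φ) : Inc (.aff a b) (lineOf v) := by
  rcases v with ⟨m, t⟩ | ⟨m, j⟩
  · exact (mem_edge_inl.1 hv).1
  · have := mem_edge_inr.1 hv
    simp only [lineOf]
    rw [← this]; exact hφ.inc j

theorem exists_some_word {h : ℕ} {w : Fin 3 → F} (G : Good h w) {a b : F} (hab : WP h w a b) :
    ∃ φ, IsWord w a b φ := by
  obtain ⟨X, hX, hXc, -, -⟩ := gadget w (.ver a) ∅ ∅ (by simp)
  obtain ⟨φ, hφ, -⟩ := exists_word G hab (m := .ver a) rfl hX hXc
  exact ⟨φ, hφ⟩

theorem exists_center {h : ℕ} {w : Fin 3 → F} (G : Good h w) (C : Finset (Lab F))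
    (hC : Covers h w C) (hcard : C.card ≤ 2 ^ h + 16) :
    ∃ z : Pt F, ∀ m : Ln F, Inc z m → m ∉ (Tri : Finset (Ln F)) → m ∈ C.image lineOf := by
  have hL : (C.image lineOf).card ≤ 2 ^ h + 16 := Finset.card_image_le.trans hcard
  have hhit := hitting G (C.image lineOf) hL (by
    intro a b hab
    obtain ⟨φ, hφ⟩ := exists_some_word G hab
    obtain ⟨v, hv, hve⟩ := hC a b φ hab hφ
    exact ⟨lineOf v, Finset.mem_image_of_mem _ hv, lineOf_mem_edge hφ hve⟩)
  have h324 : 18 ^ 2 < Fintype.card F := by
    rw [G.card]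
    calc 18 ^ 2 < 2 ^ 9 := by norm_num
      _ ≤ 2 ^ h := Nat.pow_le_pow_right (by norm_num) G.h9
  obtain ⟨z, hz⟩ := bruen (C.image lineOf ∪ Tri) 18 h324 (by
    rw [G.card]
    have h1 := Finset.card_union_le (C.image lineOf) (Tri : Finset (Ln F))
    have h2 : (Tri : Finset (Ln F)).card ≤ 3 := by
      unfold Tri; exact Finset.card_le_three
    omega) (by
    intro z
    cases z with
    | aff a b =>
      by_cases ha : a = 0
      · exact ⟨.ver 0, by simp [Tri], ha⟩
      by_cases hb : b = 0
      · exact ⟨.sl 0 0, by simp [Tri], by simp [Inc, hb]⟩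
      obtain ⟨m, hm, hi⟩ := hhit a b ha hb
      exact ⟨m, Finset.mem_union_left _ hm, hi⟩
    | dir x => exact ⟨.inf, by simp [Tri], trivial⟩
    | vinf => exact ⟨.inf, by simp [Tri], trivial⟩)
  refine ⟨z, fun m hm hT => ?_⟩
  rcases Finset.mem_union.1 (hz m hm) with h | h
  · exact h
  · exact absurd h hT

theorem line_cost {h : ℕ} {w : Fin 3 → F} (G : Good h w) (C : Finset (Lab F))
    (hC : Covers h w C) (hcard : C.card ≤ 2 ^ h + 16) {z : Pt F}
    (hz : ∀ m : Ln F, Inc z m → m ∉ (Tri : Finset (Ln F)) → m ∈ C.image lineOf)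
    {m : Ln F} (hzm : Inc z m) (hmT : m ∉ (Tri : Finset (Ln F))) :
    1 + (J w m).card / 2 ≤ (C.filter (fun v => lineOf v = m)).card := by
  by_contra hlt
  push Not at hlt
  set A : Finset (Sym2 (Finset (Fin 16))) := univ.filter (fun t => (Sum.inl (m, t) : Lab F) ∈ C)
    with hA
  set B : Finset (Fin 16) := univ.filter (fun j => (Sum.inr (m, j) : Lab F) ∈ C) with hB
  have hAB : A.card + B.card ≤ (C.filter (fun v => lineOf v = m)).card := by
    have hdisj : Disjoint (A.image (fun t => (Sum.inl (m, t) : Lab F)))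
        (B.image (fun j => (Sum.inr (m, j) : Lab F))) := by
      rw [Finset.disjoint_left]
      intro v hv hv'
      obtain ⟨t, _, rfl⟩ := Finset.mem_image.1 hv
      obtain ⟨j, _, h⟩ := Finset.mem_image.1 hv'
      exact absurd h (by simp)
    have h1 : (A.image (fun t => (Sum.inl (m, t) : Lab F))).card = A.card :=
      Finset.card_image_of_injective _ (fun x y hxy => by simpa using hxy)
    have h2 : (B.image (fun j => (Sum.inr (m, j) : Lab F))).card = B.card :=
      Finset.card_image_of_injective _ (fun x y hxy => by simpa using hxy)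
    rw [← h1, ← h2, ← Finset.card_union_of_disjoint hdisj]
    apply Finset.card_le_card
    intro v hv
    rcases Finset.mem_union.1 hv with hv | hv
    · obtain ⟨t, ht, rfl⟩ := Finset.mem_image.1 hv
      exact Finset.mem_filter.2 ⟨(Finset.mem_filter.1 ht).2, rfl⟩
    · obtain ⟨j, hj, rfl⟩ := Finset.mem_image.1 hv
      exact Finset.mem_filter.2 ⟨(Finset.mem_filter.1 hj).2, rfl⟩
  obtain ⟨v0, hv0, hv0m⟩ := Finset.mem_image.1 (hz m hzm hmT)
  have hpos : 0 < (C.filter (fun v => lineOf v = m)).card :=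
    Finset.card_pos.2 ⟨v0, Finset.mem_filter.2 ⟨hv0, hv0m⟩⟩
  have hJ : J w m ≠ ∅ := by
    intro h0
    rw [h0, Finset.card_empty] at hlt
    omega
  obtain ⟨X, hX, hXc, hXA, hXB⟩ := gadget w m A B (by omega)
  have hsize := size G m hJ
  set S := univ.filter (fun p : F × F => WP h w p.1 p.2 ∧ Inc (.aff p.1 p.2) m) with hS
  set S' := S.filter (fun p => Pt.aff p.1 p.2 ≠ z) with hS'
  have hS'card : 18 ≤ S'.card := by
    have h1 : (S.filter (fun p => ¬ (Pt.aff p.1 p.2 ≠ z))).card ≤ 1 := by
      rw [Finset.card_le_one]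
      intro p hp p' hp'
      have h2 := (Finset.mem_filter.1 hp).2
      have h3 := (Finset.mem_filter.1 hp').2
      push Not at h2 h3
      rw [← h3] at h2
      simp only [Pt.aff.injEq] at h2
      exact Prod.ext h2.1 h2.2
    have h2 : S'.card + (S.filter (fun p => ¬ (Pt.aff p.1 p.2 ≠ z))).card = S.card :=
      Finset.card_filter_add_card_filter_not (s := S) (fun p => Pt.aff p.1 p.2 ≠ z)
    omega
  have key : ∀ p ∈ S', ∃ m' ∈ C.image lineOf, ¬ Inc z m' ∧ m' ≠ m ∧ Inc (.aff p.1 p.2) m' := by
    intro p hp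
    obtain ⟨hpS, hpz⟩ := Finset.mem_filter.1 hp
    obtain ⟨-, hwp, hpm⟩ := Finset.mem_filter.1 hpS
    obtain ⟨φ, hφ, hφX⟩ := exists_word G hwp hpm hX hXc
    obtain ⟨v, hv, hve⟩ := hC _ _ φ hwp hφ
    have hne : lineOf v ≠ m := by
      intro heq
      rcases v with ⟨m', t⟩ | ⟨m', j⟩
      · simp only [lineOf] at heq
        subst heq
        have h1 := (mem_edge_inl.1 hve).2
        apply hXA
        rw [hA, Finset.mem_filter]
        refine ⟨Finset.mem_univ _, ?_⟩
        have : s(X, J w m' \ X) = t := by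
          rw [h1]; unfold ty Xs; rw [hφX]
        rw [this]; exact hv
      · simp only [lineOf] at heq
        subst heq
        have h1 := mem_edge_inr.1 hve
        have hjX : j ∈ X := by
          rw [← hφX, Finset.mem_filter]; exact ⟨Finset.mem_univ _, h1⟩
        have hjB : j ∈ B := by
          rw [hB, Finset.mem_filter]; exact ⟨Finset.mem_univ _, hv⟩
        exact Finset.disjoint_left.1 hXB hjX hjB
    have hinc := lineOf_mem_edge hφ hve
    refine ⟨lineOf v, Finset.mem_image_of_mem _ hv, ?_, hne, hinc⟩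
    intro hzv
    rcases eq_or_eq' hinc hpm hzv hzm with h | h
    · exact hpz h
    · exact hne h
  have : Nonempty (Ln F) := ⟨.inf⟩
  choose! f hf1 hf2 hf3 hf4 using key
  have hinj : S'.card ≤ ((C.image lineOf).filter (fun m' => ¬ Inc z m')).card := by
    apply Finset.card_le_card_of_injOn f
    · intro p hp
      exact Finset.mem_coe.2 (Finset.mem_filter.2 ⟨hf1 p hp, hf2 p hp⟩)
    · intro p hp p' hp' heq
      have hpm := (Finset.mem_filter.1 (Finset.mem_filter.1 hp).1).2.2
      have hpm' := (Finset.mem_filter.1 (Finset.mem_filter.1 hp').1).2.2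
      have h4 := hf4 p' hp'
      rw [← heq] at h4
      rcases eq_or_eq' (hf4 p hp) hpm h4 hpm' with h | h
      · simp only [Pt.aff.injEq] at h
        exact Prod.ext h.1 h.2
      · exact absurd h (hf3 p hp)
  have hthr : 2 ^ h - 1 ≤ ((C.image lineOf).filter (fun m' => Inc z m')).card := by
    refine (card_through G z).trans (Finset.card_le_card ?_)
    intro m' hm'
    obtain ⟨-, h1, h2⟩ := Finset.mem_filter.1 hm'
    exact Finset.mem_filter.2 ⟨hz m' h1 h2, h1⟩
  have htot := Finset.card_filter_add_card_filter_not (s := C.image lineOf) (fun m' => Inc z m')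
  have hL : (C.image lineOf).card ≤ 2 ^ h + 16 := Finset.card_image_le.trans hcard
  have hpow : 1 ≤ 2 ^ h := Nat.one_le_two_pow
  omega

theorem cover_bound {h : ℕ} {w : Fin 3 → F} (G : Good h w) (C : Finset (Lab F))
    (hC : Covers h w C) : 2 ^ h + 17 ≤ C.card := by
  by_contra hlt
  have hcard : C.card ≤ 2 ^ h + 16 := by omega
  obtain ⟨z, hz⟩ := exists_center G C hC hcard
  set M := univ.filter (fun m : Ln F => Inc z m ∧ m ∉ (Tri : Finset (Ln F))) with hM
  have h1 : 2 ^ h + 17 ≤ ∑ m ∈ M, (1 + (J w m).card / 2) := cost G z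
  have h2 : ∑ m ∈ M, (1 + (J w m).card / 2) ≤
      ∑ m ∈ M, (C.filter (fun v => lineOf v = m)).card := by
    refine Finset.sum_le_sum fun m hm => ?_
    obtain ⟨-, ha, hb⟩ := Finset.mem_filter.1 hm
    exact line_cost G C hC hcard hz ha hb
  have h3 : ∑ m ∈ M, (C.filter (fun v => lineOf v = m)).card ≤ C.card := by
    have h4 : (C.filter (fun v => lineOf v ∈ M)).card =
        ∑ m ∈ M, ((C.filter (fun v => lineOf v ∈ M)).filter (fun v => lineOf v = m)).card :=
      Finset.card_eq_sum_card_fiberwise (fun v hv => (Finset.mem_filter.1 hv).2)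
    have h5 : ∀ m ∈ M, (C.filter (fun v => lineOf v = m)).card =
        ((C.filter (fun v => lineOf v ∈ M)).filter (fun v => lineOf v = m)).card := by
      intro m hm
      congr 1
      ext v
      simp only [Finset.mem_filter]
      constructor
      · rintro ⟨ha, hb⟩
        exact ⟨⟨ha, hb ▸ hm⟩, hb⟩
      · rintro ⟨⟨ha, _⟩, hb⟩
        exact ⟨ha, hb⟩
    rw [Finset.sum_congr rfl h5, ← h4]
    exact Finset.card_le_card (Finset.filter_subset _ _)
  omega

end Vale.Agent.P045
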