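import Mathlib

/-!
# P045: definitions for the disproof of Ryser's conjecture

Projective plane over a finite field in coordinates, trace polynomial, word points,
special lines (the finset `J` of extension colours of a line) and words.
-/

namespace Vale.Agent.P045

open Finset

/-- Points of the projective plane: affine points, and the points at infinity
(slope `x`, vertical). -/
inductive Pt (F : Type) : Type
  | aff (a b : F) : Pt F
  | dir (x : F) : Pt F
  | vinf : Pt F
  deriving DecidableEq, Fintype

/-- Lines of the projective plane: `b = x a + y`, `a = c`, and the line at infinity. -/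
inductive Ln (F : Type) : Type
  | sl (x y : F) : Ln F
  | ver (c : F) : Ln F
  | inf : Ln F
  deriving DecidableEq, Fintype

variable {F : Type} [Field F] [Fintype F] [DecidableEq F]

/-- Incidence. -/
def Inc : Pt F → Ln F → Prop
  | .aff a b, .sl x y => b = x * a + y
  | .aff a _, .ver c => a = c
  | .aff _ _, .inf => False
  | .dir x, .sl x' _ => x = x'
  | .dir _, .ver _ => False
  | .dir _, .inf => True
  | .vinf, .sl _ _ => False
  | .vinf, .ver _ => True
  | .vinf, .inf => True

instance decInc (z : Pt F) (m : Ln F) : Decidable (Inc z m) := by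
  cases z <;> cases m <;> (unfold Inc; infer_instance)

/-- The trace polynomial `z + z^2 + z^4 + ... + z^(2^(h-1))`. -/
def T (h : ℕ) (z : F) : F := ∑ i ∈ Finset.range h, z ^ (2 ^ i)

/-- Standing assumptions: `F` has `2^h ≥ 512` elements, `w 0, w 1, w 2` are distinct, nonzero and
have sum zero. -/
structure Good (h : ℕ) (w : Fin 3 → F) : Prop where
  h9 : 9 ≤ h
  card : Fintype.card F = 2 ^ h
  two : (2 : F) = 0
  ne : ∀ i, w i ≠ 0
  inj : Function.Injective w
  sum : w 0 + w 1 + w 2 = 0

/-- `(a,b)` is a word point: `ab` is not in the subspace `W`. -/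
def WP (h : ℕ) (w : Fin 3 → F) (a b : F) : Prop := ∃ k, T h (w k * (a * b)) ≠ 0

instance (h : ℕ) (w : Fin 3 → F) (a b : F) : Decidable (WP h w a b) := by
  unfold WP; infer_instance

def JC : Finset (Fin 16) := {0, 1, 2, 3, 4, 5, 6, 7, 8, 9}
def JV : Finset (Fin 16) := {10, 11, 14, 15}
def JH : Finset (Fin 16) := {10, 11, 12, 13}
def JR : Finset (Fin 16) := {12, 13, 14, 15}

/-- The extension colours of a line (empty for the lines that are not special). -/
def J (w : Fin 3 → F) : Ln F → Finset (Fin 16)
  | .sl x y =>
      if y = 0 then (if x = 0 then ∅ else JR)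
      else if x = 0 then JH
      else if ∃ k, x = w k * y ^ 2 then JC else ∅
  | .ver c => if c = 0 then ∅ else JV
  | .inf => ∅

/-- A word at the point `(a,b)`: each of the 16 extension colours is given to a line through the
point which owns it, and each line through the point receives exactly half of the colours it
owns. -/
structure IsWord (w : Fin 3 → F) (a b : F) (φ : Fin 16 → Ln F) : Prop where
  inc : ∀ j, Inc (.aff a b) (φ j)
  mem : ∀ j, j ∈ J w (φ j)
  bal : ∀ m, Inc (.aff a b) m → 2 * (univ.filter (fun j => φ j = m)).card = (J w m).card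

/-- The triangle. -/
def Tri : Finset (Ln F) := {.ver 0, .sl 0 0, .inf}

end Vale.Agent.P045
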