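import Vale.Agent.Lib.P045.Assembly

/-!
# P045: the counterexample in raw form
-/

namespace Vale.Agent.P045

open Finset

theorem raw (h : ℕ) (hh : 9 ≤ h) :
    ∃ (V : Type) (_ : Fintype V) (part : V → Fin (2 ^ h + 17)) (E : Finset (Finset V)),
      (∀ e ∈ E, ∀ i, ∃! v, v ∈ e ∧ part v = i) ∧ E.Nonempty ∧
      (∀ e ∈ E, ∀ f ∈ E, ∃ v, v ∈ e ∧ v ∈ f) ∧
      (∀ C : Finset V, (∀ e ∈ E, ∃ v ∈ C, v ∈ e) → 2 ^ h + 17 ≤ C.card) := by
  classical
  obtain ⟨F, _, _, _, w, G⟩ := exists_good h hh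
  have hc : Fintype.card (Option F ⊕ Fin 16) = 2 ^ h + 17 := by
    rw [Fintype.card_sum, Fintype.card_option, G.card, Fintype.card_fin]
  set ε : Option F ⊕ Fin 16 ≃ Fin (2 ^ h + 17) := Fintype.equivFinOfCardEq hc with hε
  set E : Finset (Finset (Lab F)) := univ.filter (fun e : Finset (Lab F) =>
    ∃ a b φ, WP h w a b ∧ IsWord w a b φ ∧ e = edge w a b φ) with hE
  refine ⟨Lab F, inferInstance, fun v => ε (colOf v), E, ?_, ?_, ?_, ?_⟩
  · intro e he i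
    obtain ⟨-, a, b, φ, -, -, rfl⟩ := Finset.mem_filter.1 he
    obtain ⟨v, ⟨hv1, hv2⟩, hv3⟩ := edge_transversal w a b φ (ε.symm i)
    refine ⟨v, ⟨hv1, ?_⟩, ?_⟩
    · simp [hv2]
    · rintro v' ⟨h1, h2⟩
      apply hv3
      refine ⟨h1, ?_⟩
      rw [← h2]; simp
  · obtain ⟨x, hx⟩ := exists_T_eq_one (F := F) (h := h) (by omega) G.card G.two
    have hwp : WP h w ((w 0)⁻¹ * x) 1 := by
      refine ⟨0, ?_⟩
      have : w 0 * ((w 0)⁻¹ * x * 1) = x := by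
        rw [mul_one, ← mul_assoc, mul_inv_cancel₀ (G.ne 0), one_mul]
      rw [this, hx]
      exact one_ne_zero
    obtain ⟨φ, hφ⟩ := exists_some_word G hwp
    exact ⟨edge w _ _ φ, Finset.mem_filter.2 ⟨Finset.mem_univ _, _, _, φ, hwp, hφ, rfl⟩⟩
  · intro e he f hf
    obtain ⟨-, a, b, φ, -, hφ, rfl⟩ := Finset.mem_filter.1 he
    obtain ⟨-, a', b', φ', -, hφ', rfl⟩ := Finset.mem_filter.1 hf
    exact edge_inter hφ hφ'
  · intro C hC
    refine cover_bound G C ?_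
    intro a b φ hab hφ
    exact hC _ (Finset.mem_filter.2 ⟨Finset.mem_univ _, a, b, φ, hab, hφ, rfl⟩)

end Vale.Agent.P045
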