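import Vale.Agent.Lib.P045.Defs

/-!
# P045: test functions for the hitting lemma
-/

namespace Vale.Agent.P045

open Finset

section alt

/-- allowed exponents for weight `d` (with `q = 16 Q`). -/
def Al (Q d k : ℕ) : Prop :=
  ∀ i j : ℕ, i + j ≤ 16 * Q + 16 → i ≡ j + d [MOD 16 * Q - 1] → ¬ (16 * Q - 1) ∣ (k + j)

theorem al_aux {Q d i j : ℕ} (hQ : 32 ≤ Q) (hd : d ≤ 8 * Q - 1) (hij : i + j ≤ 16 * Q + 16)
    (hm : i ≡ j + d [MOD 16 * Q - 1]) :
    i = j + d ∨ i + (16 * Q - 1) = j + d ∨ i = j + d + (16 * Q - 1) := by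
  rcases le_total i (j + d) with h | h
  · have h1 := (Nat.modEq_iff_dvd' h).1 hm
    obtain ⟨s, hs⟩ := h1
    rcases s with _ | _ | s
    · left; simp at hs; omega
    · right; left; simp at hs; omega
    · exfalso
      have : (16 * Q - 1) * 2 ≤ (16 * Q - 1) * (s + 1 + 1) := Nat.mul_le_mul_left _ (by omega)
      omega
  · have h1 := (Nat.modEq_iff_dvd' h).1 hm.symm
    obtain ⟨s, hs⟩ := h1
    rcases s with _ | _ | s
    · left; simp at hs; omega
    · right; right; simp at hs; omega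
    · exfalso
      have : (16 * Q - 1) * 2 ≤ (16 * Q - 1) * (s + 1 + 1) := Nat.mul_le_mul_left _ (by omega)
      omega

theorem ndvd_aux {N x : ℕ} (h : (0 < x ∧ x < N) ∨ (N < x ∧ x < 2 * N)) : ¬ N ∣ x := by
  rintro ⟨t, ht⟩
  rcases t with _ | _ | t
  · omega
  · omega
  · have : N * 2 ≤ N * (t + 1 + 1) := Nat.mul_le_mul_left _ (by omega)
    omega

theorem al1 {Q d k : ℕ} (hQ : 32 ≤ Q) (hd : d ≤ 8 * Q - 18) (hk1 : d + 1 ≤ k)
    (hk2 : k ≤ d + 4 * Q - 1) : Al Q d k := by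
  intro i j hij hm
  apply ndvd_aux
  rcases al_aux hQ (by omega) hij hm with h | h | h <;> omega

theorem al2 {Q d k : ℕ} (hQ : 32 ≤ Q) (hd1 : 8 * Q - 17 ≤ d) (hd : d ≤ 8 * Q - 1)
    (hk : (1 ≤ k ∧ k ≤ 4 * Q - 18) ∨ (8 * Q ≤ k ∧ k ≤ 12 * Q - 18)) : Al Q d k := by
  intro i j hij hm
  apply ndvd_aux
  rcases al_aux hQ hd hij hm with h | h | h <;> omega

end alt

variable {F : Type} [Field F] [Fintype F] [DecidableEq F]

/-- span of the monomials with exponents in `M`. -/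
def Sp (F : Type) [Field F] (M : Set ℕ) : Submodule F (F → F) :=
  Submodule.span F ((fun k : ℕ => (fun v : F => v ^ k)) '' M)

theorem Sp_mono {M N : Set ℕ} (h : M ⊆ N) : Sp F M ≤ Sp F N :=
  Submodule.span_mono (Set.image_mono h)

theorem mono_mem {M : Set ℕ} {k : ℕ} (h : k ∈ M) : (fun v : F => v ^ k) ∈ Sp F M :=
  Submodule.subset_span ⟨k, h, rfl⟩

theorem mul_var {s e : ℕ} {f : F → F} (hf : f ∈ Sp F (Set.Icc s e)) :
    (fun v => v * f v) ∈ Sp F (Set.Icc s (e + 1)) := by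
  unfold Sp at hf
  induction hf using Submodule.span_induction with
  | mem x hx =>
    obtain ⟨k, hk, rfl⟩ := hx
    have : (fun v : F => v * v ^ k) = fun v : F => v ^ (k + 1) := by
      funext v; ring
    rw [this]
    exact mono_mem ⟨by have := hk.1; omega, by have := hk.2; omega⟩
  | zero =>
    have : (fun v : F => v * (0 : F → F) v) = 0 := by funext v; simp
    rw [this]; exact Submodule.zero_mem _
  | add x y _ _ hx hy =>
    have : (fun v : F => v * (x + y) v) = (fun v => v * x v) + (fun v => v * y v) := by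
      funext v; simp [mul_add]
    rw [this]; exact Submodule.add_mem _ hx hy
  | smul a x _ hx =>
    have : (fun v : F => v * (a • x) v) = a • (fun v => v * x v) := by
      funext v; simp [mul_left_comm]
    rw [this]; exact Submodule.smul_mem _ _ hx

theorem prod_mem (s : ℕ) (S : Finset F) :
    (fun v : F => v ^ s * ∏ c ∈ S, (v - c)) ∈ Sp F (Set.Icc s (s + S.card)) := by
  induction S using Finset.induction_on with
  | empty => simpa using mono_mem (F := F) (M := Set.Icc s s) ⟨le_rfl, le_rfl⟩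
  | insert c S hc ih =>
    have : (fun v : F => v ^ s * ∏ c ∈ insert c S, (v - c)) =
        (fun v => v * (v ^ s * ∏ c ∈ S, (v - c))) - c • (fun v => v ^ s * ∏ c ∈ S, (v - c)) := by
      funext v
      simp only [Finset.prod_insert hc, Pi.sub_apply, Pi.smul_apply, smul_eq_mul]
      ring
    rw [this, Finset.card_insert_of_notMem hc]
    refine Submodule.sub_mem _ ?_ (Submodule.smul_mem _ _ ?_)
    · exact mul_var ih
    · exact Sp_mono (Set.Icc_subset_Icc le_rfl (by omega)) ih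

/-- A function in the span of allowed monomials is orthogonal to what it should. -/
theorem orth_of_mem {Q d : ℕ} (hq : Fintype.card F = 16 * Q) {g : F → F}
    (hg : g ∈ Sp F {k | Al Q d k}) {i j : ℕ} (hij : i + j ≤ 16 * Q + 16)
    (hm : i ≡ j + d [MOD 16 * Q - 1]) : ∑ v : Fˣ, (v : F) ^ j * g v = 0 := by
  unfold Sp at hg
  induction hg using Submodule.span_induction with
  | mem x hx =>
    obtain ⟨k, hk, rfl⟩ := hx
    have h1 := FiniteField.sum_pow_units F (k + j)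
    rw [hq, if_neg (hk i j hij hm)] at h1
    rw [← h1]
    refine Finset.sum_congr rfl fun v _ => ?_
    ring
  | zero => simp
  | add x y _ _ hx hy =>
    simp only [Pi.add_apply, mul_add, Finset.sum_add_distrib, hx, hy, add_zero]
  | smul a x _ hx =>
    have : ∑ v : Fˣ, (v : F) ^ j * (a • x) v = a * ∑ v : Fˣ, (v : F) ^ j * x v := by
      rw [Finset.mul_sum]
      refine Finset.sum_congr rfl fun v _ => ?_
      simp [mul_left_comm]
    rw [this, hx, mul_zero]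

theorem frob (h2 : (2 : F) = 0) (x y : F) (n : ℕ) : (x + y) ^ 2 ^ n = x ^ 2 ^ n + y ^ 2 ^ n := by
  have : CharP F 2 := CharTwo.of_one_ne_zero_of_two_eq_zero one_ne_zero h2
  exact add_pow_char_pow x y 2 n

/-- combination of the two trace equations -/
theorem comb {h : ℕ} {x y : F} (A B : F) {v : F} (h1 : T h (x * v) = 0) (h2 : T h (y * v) = 0) :
    ∑ i ∈ range h, (A * x ^ 2 ^ i + B * y ^ 2 ^ i) * v ^ 2 ^ i = 0 := by
  have : ∑ i ∈ range h, (A * x ^ 2 ^ i + B * y ^ 2 ^ i) * v ^ 2 ^ i =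
      A * T h (x * v) + B * T h (y * v) := by
    unfold T
    rw [Finset.mul_sum, Finset.mul_sum, ← Finset.sum_add_distrib]
    refine Finset.sum_congr rfl fun i _ => ?_
    rw [mul_pow, mul_pow]; ring
  rw [this, h1, h2]; ring

theorem kappa_ne (h2 : (2 : F) = 0) {x y : F} (hx : x ≠ 0) (hy : y ≠ 0) (hxy : x ≠ y) (n : ℕ) :
    y ^ 2 ^ (n + 1) * x ^ 2 ^ n + x ^ 2 ^ (n + 1) * y ^ 2 ^ n ≠ 0 := by
  have e : y ^ 2 ^ (n + 1) * x ^ 2 ^ n + x ^ 2 ^ (n + 1) * y ^ 2 ^ n =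
      (x * y * (x + y)) ^ 2 ^ n := by
    rw [mul_pow, frob h2, mul_pow, pow_succ, pow_mul, pow_mul]; ring
  rw [e]
  refine pow_ne_zero _ (mul_ne_zero (mul_ne_zero hx hy) ?_)
  intro h
  apply hxy
  have : x = x + y - y := by ring
  rw [this, h]
  have h3 : (2 : F) * y = 0 := by rw [h2, zero_mul]
  linear_combination -h3

/-- The subspace `W` has at most `q/4` elements. -/
theorem card_W_le (n : ℕ) (h2 : (2 : F) = 0) {x y : F} (hx : x ≠ 0) (hy : y ≠ 0) (hxy : x ≠ y) :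
    (univ.filter (fun c : F => T (n + 4) (x * c) = 0 ∧ T (n + 4) (y * c) = 0)).card
      ≤ 4 * 2 ^ n := by
  set β : ℕ → F := fun i => y ^ 2 ^ (n + 3) * x ^ 2 ^ i + x ^ 2 ^ (n + 3) * y ^ 2 ^ i with hβ
  set p : Polynomial F := ∑ i ∈ range (n + 3), Polynomial.monomial (2 ^ i) (β i) with hp
  have hcoef : p.coeff (2 ^ (n + 2)) = β (n + 2) := by
    rw [hp, Polynomial.finsetSum_coeff]
    rw [Finset.sum_eq_single (n + 2)]
    · simp
    · intro b hb hne
      rw [Polynomial.coeff_monomial, if_neg]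
      intro h
      exact hne (Nat.pow_right_injective le_rfl h)
    · intro h; simp at h
  have hβne : β (n + 2) ≠ 0 := kappa_ne h2 hx hy hxy (n + 2)
  have hp0 : p ≠ 0 := by
    intro h; rw [h] at hcoef; simp at hcoef; exact hβne hcoef.symm
  have hdeg : p.natDegree ≤ 2 ^ (n + 2) := by
    rw [hp]
    refine Polynomial.natDegree_sum_le_of_forall_le _ _ ?_
    intro i hi
    refine (Polynomial.natDegree_monomial_le _).trans ?_
    exact Nat.pow_le_pow_right (by norm_num) (by have := Finset.mem_range.1 hi; omega)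
  have hsub : (univ.filter (fun c : F => T (n + 4) (x * c) = 0 ∧ T (n + 4) (y * c) = 0)) ⊆
      p.roots.toFinset := by
    intro c hc
    rw [Finset.mem_filter] at hc
    rw [Multiset.mem_toFinset, Polynomial.mem_roots hp0, Polynomial.IsRoot.def]
    have h3 := comb (y ^ 2 ^ (n + 3)) (x ^ 2 ^ (n + 3)) hc.2.1 hc.2.2
    rw [show n + 4 = (n + 3) + 1 from rfl, Finset.sum_range_succ] at h3
    have h4 : y ^ 2 ^ (n + 3) * x ^ 2 ^ (n + 3) + x ^ 2 ^ (n + 3) * y ^ 2 ^ (n + 3) = 0 := by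
      have : (2 : F) * (x ^ 2 ^ (n + 3) * y ^ 2 ^ (n + 3)) = 0 := by rw [h2, zero_mul]
      linear_combination this
    rw [h4, zero_mul, add_zero] at h3
    rw [hp, Polynomial.eval_finsetSum, ← h3]
    refine Finset.sum_congr rfl fun i _ => ?_
    simp only [hβ, Polynomial.eval_monomial]
  calc _ ≤ p.roots.toFinset.card := Finset.card_le_card hsub
    _ ≤ Multiset.card p.roots := Multiset.toFinset_card_le _
    _ ≤ p.natDegree := Polynomial.card_roots' p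
    _ ≤ 2 ^ (n + 2) := hdeg
    _ = 4 * 2 ^ n := by ring

/-- The set of exponents used for the weights `q/2-17 ≤ d ≤ q/2-1`. -/
def M2 (Q : ℕ) : Set ℕ := {k | (1 ≤ k ∧ k ≤ 4 * Q - 18) ∨ (8 * Q ≤ k ∧ k ≤ 12 * Q - 18)}

theorem sum_fun_mem {M : Set ℕ} {ι : Type} (s : Finset ι) (a : ι → F) (e : ι → ℕ)
    (he : ∀ i ∈ s, e i ∈ M) : (fun v : F => ∑ i ∈ s, a i * v ^ e i) ∈ Sp F M := by
  have : (fun v : F => ∑ i ∈ s, a i * v ^ e i) = ∑ i ∈ s, a i • (fun v : F => v ^ e i) := by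
    funext v; simp [Finset.sum_apply]
  rw [this]
  exact Submodule.sum_mem _ fun i hi => Submodule.smul_mem _ _ (mono_mem (he i hi))

/-- replacing a monomial on `W` by allowed ones -/
theorem replace_mono (n : ℕ) (hn : 32 ≤ 2 ^ n) (h2 : (2 : F) = 0) {x y : F} (hx : x ≠ 0)
    (hy : y ≠ 0) (hxy : x ≠ y) {k : ℕ} (hk1 : 1 ≤ k) (hk : k ≤ 4 * 2 ^ n - 1) :
    ∃ g ∈ Sp F (M2 (2 ^ n)), ∀ v : F, T (n + 4) (x * v) = 0 → T (n + 4) (y * v) = 0 →
      g v = v ^ k := by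
  by_cases hk3 : k ≤ 4 * 2 ^ n - 18
  · exact ⟨_, mono_mem (Or.inl ⟨hk1, hk3⟩), fun v _ _ => rfl⟩
  obtain ⟨j, rfl⟩ : ∃ j, k = 2 * 2 ^ n + j := ⟨k - 2 * 2 ^ n, by omega⟩
  set β : ℕ → F := fun i => y ^ 2 ^ (n + 2) * x ^ 2 ^ i + x ^ 2 ^ (n + 2) * y ^ 2 ^ i with hβ
  have hκ : β (n + 1) ≠ 0 := kappa_ne h2 hx hy hxy (n + 1)
  refine ⟨(fun v : F => ∑ i ∈ range (n + 1), (-(β (n + 1))⁻¹ * β i) * v ^ (2 ^ i + j)) +
    (-(β (n + 1))⁻¹ * β (n + 3)) • (fun v : F => v ^ (8 * 2 ^ n + j)), ?_, ?_⟩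
  · refine Submodule.add_mem _ (sum_fun_mem _ _ _ ?_) (Submodule.smul_mem _ _ (mono_mem ?_))
    · intro i hi
      have h3 : 2 ^ i ≤ 2 ^ n :=
        Nat.pow_le_pow_right (by norm_num) (by have := Finset.mem_range.1 hi; omega)
      have h4 : 1 ≤ 2 ^ i := Nat.one_le_two_pow
      left; constructor <;> omega
    · right; constructor <;> omega
  · intro v hv1 hv2
    have h3 := comb (y ^ 2 ^ (n + 2)) (x ^ 2 ^ (n + 2)) hv1 hv2
    rw [show n + 4 = (n + 1) + 1 + 1 + 1 from rfl, Finset.sum_range_succ, Finset.sum_range_succ,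
      Finset.sum_range_succ] at h3
    have h4 : y ^ 2 ^ (n + 2) * x ^ 2 ^ (n + 1 + 1) + x ^ 2 ^ (n + 2) * y ^ 2 ^ (n + 1 + 1) = 0 := by
      have : (2 : F) * (x ^ 2 ^ (n + 2) * y ^ 2 ^ (n + 2)) = 0 := by rw [h2, zero_mul]
      linear_combination this
    rw [h4, zero_mul, add_zero] at h3
    have h5 : ∑ i ∈ range (n + 1), β i * v ^ 2 ^ i + β (n + 1) * v ^ 2 ^ (n + 1) +
      β (n + 3) * v ^ 2 ^ (n + 3) = 0 := h3
    have e1 : (2 : ℕ) ^ (n + 1) = 2 * 2 ^ n := by ring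
    have e3 : (2 : ℕ) ^ (n + 3) = 8 * 2 ^ n := by ring
    rw [e1, e3] at h5
    have h6 : ∑ i ∈ range (n + 1), (-(β (n + 1))⁻¹ * β i) * v ^ (2 ^ i + j) =
        -(β (n + 1))⁻¹ * v ^ j * ∑ i ∈ range (n + 1), β i * v ^ 2 ^ i := by
      rw [Finset.mul_sum]
      refine Finset.sum_congr rfl fun i _ => ?_
      rw [pow_add]; ring
    simp only [Pi.add_apply, Pi.smul_apply, smul_eq_mul]
    rw [h6, pow_add, pow_add]
    have h7 : ∑ i ∈ range (n + 1), β i * v ^ 2 ^ i = - (β (n + 1) * v ^ (2 * 2 ^ n)) -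
      β (n + 3) * v ^ (8 * 2 ^ n) := by linear_combination h5
    rw [h7]
    field_simp
    ring

theorem replace_span (n : ℕ) (hn : 32 ≤ 2 ^ n) (h2 : (2 : F) = 0) {x y : F} (hx : x ≠ 0)
    (hy : y ≠ 0) (hxy : x ≠ y) {f : F → F} (hf : f ∈ Sp F (Set.Icc 1 (4 * 2 ^ n - 1))) :
    ∃ g ∈ Sp F (M2 (2 ^ n)), ∀ v : F, T (n + 4) (x * v) = 0 → T (n + 4) (y * v) = 0 →
      g v = f v := by
  unfold Sp at hf
  induction hf using Submodule.span_induction with
  | mem f hf =>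
    obtain ⟨k, hk, rfl⟩ := hf
    exact replace_mono n hn h2 hx hy hxy hk.1 hk.2
  | zero => exact ⟨0, Submodule.zero_mem _, fun _ _ _ => rfl⟩
  | add f1 f2 _ _ h1 h2 =>
    obtain ⟨g1, hg1, e1⟩ := h1
    obtain ⟨g2, hg2, e2⟩ := h2
    exact ⟨g1 + g2, Submodule.add_mem _ hg1 hg2, fun v a b => by simp [e1 v a b, e2 v a b]⟩
  | smul a f1 _ h1 =>
    obtain ⟨g1, hg1, e1⟩ := h1
    exact ⟨a • g1, Submodule.smul_mem _ _ hg1, fun v c b => by simp [e1 v c b]⟩

/-- Existence of the span element, for `d ≤ q/2 - 1`. -/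
theorem exists_test_low {n : ℕ} {w : Fin 3 → F} (G : Good (n + 4) w) (c0 : F) (hc0 : c0 ≠ 0)
    (hW : ∀ k, T (n + 4) (w k * c0) = 0) (d : ℕ) (hd : d ≤ 8 * 2 ^ n - 1) :
    ∃ g ∈ Sp F {k | Al (2 ^ n) d k}, g c0 ≠ 0 ∧
      (∀ c, c ≠ 0 → c ≠ c0 → (∀ k, T (n + 4) (w k * c) = 0) → g c = 0) := by
  have hn : 32 ≤ 2 ^ n := by
    have := G.h9
    calc 32 = 2 ^ 5 := by norm_num
      _ ≤ 2 ^ n := Nat.pow_le_pow_right (by norm_num) (by omega)
  have h01 : w 0 ≠ w 1 := fun h => by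
    have := G.inj h
    exact absurd this (by decide)
  set W := univ.filter (fun c : F => T (n + 4) (w 0 * c) = 0 ∧ T (n + 4) (w 1 * c) = 0) with hWd
  have hcard : W.card ≤ 4 * 2 ^ n := card_W_le n G.two (G.ne 0) (G.ne 1) h01
  set S := (W.erase 0).erase c0 with hS
  have h0W : (0 : F) ∈ W := by
    rw [hWd, Finset.mem_filter]
    have : T (n + 4) (0 : F) = 0 := by
      unfold T
      refine Finset.sum_eq_zero fun i _ => ?_
      rw [zero_pow (by positivity)]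
    simp [this]
  have hc0W : c0 ∈ W.erase 0 := by
    rw [Finset.mem_erase, hWd, Finset.mem_filter]
    exact ⟨hc0, Finset.mem_univ _, hW 0, hW 1⟩
  have hScard : S.card ≤ 4 * 2 ^ n - 2 := by
    rw [hS, Finset.card_erase_of_mem hc0W, Finset.card_erase_of_mem h0W]
    omega
  have hne : ∀ s : ℕ, c0 ^ s * ∏ c ∈ S, (c0 - c) ≠ 0 := by
    intro s
    refine mul_ne_zero (pow_ne_zero _ hc0) (Finset.prod_ne_zero_iff.2 ?_)
    intro c hc h
    have : c0 = c := sub_eq_zero.1 h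
    rw [hS, Finset.mem_erase] at hc
    exact hc.1 this.symm
  have hzero : ∀ s : ℕ, ∀ c, c ≠ 0 → c ≠ c0 → (∀ k, T (n + 4) (w k * c) = 0) →
      c ^ s * ∏ x ∈ S, (c - x) = 0 := by
    intro s c h1 h2 h3
    have hcS : c ∈ S := by
      rw [hS, Finset.mem_erase, Finset.mem_erase, hWd, Finset.mem_filter]
      exact ⟨h2, h1, Finset.mem_univ _, h3 0, h3 1⟩
    rw [Finset.prod_eq_zero hcS (sub_self c), mul_zero]
  by_cases hd2 : d ≤ 8 * 2 ^ n - 18
  · refine ⟨fun v : F => v ^ (d + 1) * ∏ c ∈ S, (v - c), ?_, hne _, hzero _⟩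
    refine Sp_mono ?_ (prod_mem (d + 1) S)
    intro k hk
    exact al1 hn hd2 hk.1 (by have := hk.2; omega)
  · have hmem : (fun v : F => v ^ 1 * ∏ c ∈ S, (v - c)) ∈ Sp F (Set.Icc 1 (4 * 2 ^ n - 1)) := by
      refine Sp_mono ?_ (prod_mem 1 S)
      exact Set.Icc_subset_Icc le_rfl (by omega)
    obtain ⟨g, hg, hgf⟩ := replace_span n hn G.two (G.ne 0) (G.ne 1) h01 hmem
    refine ⟨g, Sp_mono ?_ hg, ?_, ?_⟩
    · intro k hk
      exact al2 hn (by omega) hd hk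
    · rw [hgf c0 (hW 0) (hW 1)]
      exact hne 1
    · intro c h1 h2 h3
      rw [hgf c (h3 0) (h3 1)]
      exact hzero 1 c h1 h2 h3

theorem exists_test {h : ℕ} {w : Fin 3 → F} (G : Good h w) (c0 : F) (hc0 : c0 ≠ 0)
    (hW : ∀ k, T h (w k * c0) = 0) (d : ℕ) (hd : d < 2 ^ h - 1) :
    ∃ g : F → F, g c0 = 1 ∧
      (∀ c, c ≠ 0 → c ≠ c0 → (∀ k, T h (w k * c) = 0) → g c = 0) ∧
      ∀ i j : ℕ, i + j ≤ 2 ^ h + 16 → i ≡ j + d [MOD 2 ^ h - 1] →
        ∑ v : Fˣ, (v : F) ^ j * g v = 0 := by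
  obtain ⟨n, rfl⟩ : ∃ n, h = n + 4 := ⟨h - 4, by have := G.h9; omega⟩
  have hq : Fintype.card F = 16 * 2 ^ n := by rw [G.card]; ring
  have hq' : (2 : ℕ) ^ (n + 4) = 16 * 2 ^ n := by ring
  have hpos : 1 ≤ 2 ^ n := Nat.one_le_two_pow
  rw [hq'] at hd
  simp only [hq']
  by_cases hd2 : d ≤ 8 * 2 ^ n - 1
  · obtain ⟨g, hg, h1, h2⟩ := exists_test_low G c0 hc0 hW d hd2
    refine ⟨fun v => (g c0)⁻¹ * g v, inv_mul_cancel₀ h1, ?_, ?_⟩
    · intro c ha hb hc
      simp only [h2 c ha hb hc, mul_zero]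
    · intro i j hij hm
      have := orth_of_mem hq hg hij hm
      have e : ∑ v : Fˣ, (v : F) ^ j * ((g c0)⁻¹ * g v) =
          (g c0)⁻¹ * ∑ v : Fˣ, (v : F) ^ j * g v := by
        rw [Finset.mul_sum]
        refine Finset.sum_congr rfl fun v _ => ?_
        ring
      rw [e, this, mul_zero]
  · obtain ⟨g, hg, h1, h2⟩ := exists_test_low G c0 hc0 hW (16 * 2 ^ n - 1 - d) (by omega)
    refine ⟨fun v => (c0 ^ d * g c0)⁻¹ * (v ^ d * g v), ?_, ?_, ?_⟩
    · exact inv_mul_cancel₀ (mul_ne_zero (pow_ne_zero _ hc0) h1)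
    · intro c ha hb hc
      simp only [h2 c ha hb hc, mul_zero]
    · intro i j hij hm
      have hm' : j ≡ i + (16 * 2 ^ n - 1 - d) [MOD 16 * 2 ^ n - 1] := by
        have h3 : i + (16 * 2 ^ n - 1 - d) ≡ j + d + (16 * 2 ^ n - 1 - d)
            [MOD 16 * 2 ^ n - 1] := Nat.ModEq.add_right _ hm
        have h4 : j + d + (16 * 2 ^ n - 1 - d) = j + (16 * 2 ^ n - 1) := by omega
        rw [h4] at h3
        have h5 : j + (16 * 2 ^ n - 1) ≡ j [MOD 16 * 2 ^ n - 1] := by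
          simp [Nat.ModEq]
        exact (h3.trans h5).symm
      have := orth_of_mem hq hg (i := j) (j := i) (by omega) hm'
      have e : ∑ v : Fˣ, (v : F) ^ j * ((c0 ^ d * g c0)⁻¹ * ((v : F) ^ d * g v)) =
          (c0 ^ d * g c0)⁻¹ * ∑ v : Fˣ, (v : F) ^ i * g v := by
        rw [Finset.mul_sum]
        refine Finset.sum_congr rfl fun v _ => ?_
        have h6 : (v : F) ^ (16 * 2 ^ n - 1) = 1 := by
          rw [← hq]
          exact FiniteField.pow_card_sub_one_eq_one _ v.ne_zero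
        have h7 : (v : F) ^ i = (v : F) ^ (j + d) := pow_eq_pow_of_modEq hm h6
        rw [h7, pow_add]; ring
      rw [e, this, mul_zero]

end Vale.Agent.P045
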